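import Crest.Agent.N250.Gl.Sys

/-!
# Row 250 (helper18): linear response, base point and reality of the glued solution
-/

set_option autoImplicit false
open Set Filter Topology Metric

noncomputable section

namespace Crest.Agent.N250.Gl

variable {Ξ H P B W V : Type*} [NormedAddCommGroup Ξ] [NormedSpace ℂ Ξ] [NormedAddCommGroup H]
  [NormedSpace ℂ H] [NormedAddCommGroup P] [NormedSpace ℂ P] [NormedAddCommGroup B]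
  [NormedSpace ℂ B] [NormedAddCommGroup W] [NormedSpace ℂ W] [NormedAddCommGroup V]
  [NormedSpace ℂ V]

theorem mv_near {f : Ξ → H} {r σ : ℝ} {D : Ξ →L[ℂ] H} (hd : DifferentiableOn ℂ f (ball 0 r))
    (h : ∀ x ∈ ball (0 : Ξ) r, ‖fderiv ℂ f x - D‖ ≤ σ) {x y : Ξ} (hx : x ∈ ball (0 : Ξ) r)
    (hy : y ∈ ball (0 : Ξ) r) : ‖f x - f y - D (x - y)‖ ≤ σ * ‖x - y‖ :=
  (convex_ball 0 r).norm_image_sub_le_of_norm_fderiv_le' (𝕜 := ℂ)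
    (fun _ hz => hd.differentiableAt (isOpen_ball.mem_nhds hz)) h hy hx

/-- a holomorphic map is `σ`-close to its derivative at `0`, in the Lipschitz sense -/
theorem HolAt.lin {f : Ξ → H} (h : HolAt f) {σ : ℝ} (hσ : 0 < σ) : ∃ r, 0 < r ∧
    DifferentiableOn ℂ f (ball 0 r) ∧ ∀ x ∈ ball (0 : Ξ) r, ∀ y ∈ ball (0 : Ξ) r,
      ‖f x - f y - fderiv ℂ f 0 (x - y)‖ ≤ σ * ‖x - y‖ := by
  obtain ⟨r, hr, hb⟩ := Metric.eventually_nhds_iff_ball.1 (h.and (h.fd_near hσ))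
  have hd : DifferentiableOn ℂ f (ball 0 r) := fun x hx => (hb x hx).1.differentiableWithinAt
  exact ⟨r, hr, hd, fun x hx y hy => mv_near hd (fun z hz => (hb z hz).2) hx hy⟩

theorem Near.sol_map [CompleteSpace Ξ] {A : Ξ ≃L[ℂ] H} {F G : Ξ → H} {ρ σ τ : ℝ}
    (h : Near A F ρ σ) (h' : Near A G ρ τ) {κ : Ξ → Ξ} (hκ : ∀ x, ‖κ x‖ = ‖x‖)
    (e : ∀ x ∈ closedBall (0 : Ξ) ρ, F x = 0 → G (κ x) = 0) : sol G ρ = κ (sol F ρ) :=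
  (h'.eq_sol (by rw [mem_closedBall_zero_iff, hκ]; exact mem_closedBall_zero_iff.1 h.sol_mem)
    (e _ h.sol_mem h.sol_eq)).symm

namespace Sys

variable (S : Sys Ξ H P B W)

/-- the linear response to a change of the parameter and of the value of the end map -/
def Rs : P × W →L[ℂ] Ξ :=
  -((S.A.symm : H →L[ℂ] Ξ) ∘L fderiv ℂ S.Φ 0 ∘L ContinuousLinearMap.inr ℂ Ξ (P × W))

theorem A_Rs (v : P × W) : S.A (S.Rs v) = -fderiv ℂ S.Φ 0 (0, v) := by simp [Rs]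

/-- a constant that does not depend on the scales -/
def κ : ℝ := ‖(S.A.symm : H →L[ℂ] Ξ)‖ * (4 * ‖fderiv ℂ S.Φ 0‖ + 2)

theorem κ_nonneg : 0 ≤ S.κ := by unfold κ; positivity

variable {S} {ρ₀ c L σ ρ : ℝ} [CompleteSpace Ξ]

theorem Sc.gl_mem (h : S.Sc ρ₀ c L σ) (hρ : 0 < ρ) (hρ' : ρ ≤ ρ₀) {y : P} {e : B → W}
    (a : S.Adm c L ρ y e) : ‖S.gl ρ y e‖ ≤ σ * ρ := (h.near' hρ hρ' a).norm_sol

theorem Sc.gl_eq (h : S.Sc ρ₀ c L σ) (hρ : 0 < ρ) (hρ' : ρ ≤ ρ₀) {y : P} {e : B → W}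
    (a : S.Adm c L ρ y e) : S.Φ (S.gl ρ y e, y, e (S.dat (S.gl ρ y e))) = 0 :=
  (h.near' hρ hρ' a).sol_eq

theorem Sc.gl_ball (h : S.Sc ρ₀ c L σ) (hρ : 0 < ρ) (hρ' : ρ ≤ ρ₀) {y : P} {e : B → W}
    (a : S.Adm c L ρ y e) : S.gl ρ y e ∈ ball (0 : Ξ) (2 * ρ) :=
  (h.near' hρ hρ' a).sub (h.near' hρ hρ' a).sol_mem

theorem Sc.dat_gl (h : S.Sc ρ₀ c L σ) (hρ : 0 < ρ) (hρ' : ρ ≤ ρ₀) {y : P} {e : B → W}
    (a : S.Adm c L ρ y e) : S.dat (S.gl ρ y e) ∈ ball (0 : B) (L * ρ) :=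
  h.dat_mem ρ hρ' _ (h.gl_ball hρ hρ' a)

/-- **linear response**, and Lipschitz bound with a constant independent of the scales -/
theorem Sc.resp (h : S.Sc ρ₀ c L σ) (hρ : 0 < ρ) (hρ' : ρ ≤ ρ₀) {y y' : P} {e e' : B → W}
    (a : S.Adm c L ρ y e) (a' : S.Adm c L ρ y' e') :
    ‖S.gl ρ y e - S.gl ρ y' e'‖ ≤
      S.κ * ‖(y - y', e (S.dat (S.gl ρ y' e')) - e' (S.dat (S.gl ρ y' e')))‖ ∧
    ‖S.gl ρ y e - S.gl ρ y' e' -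
        S.Rs (y - y', e (S.dat (S.gl ρ y' e')) - e' (S.dat (S.gl ρ y' e')))‖ ≤
      σ * S.κ * ‖(y - y', e (S.dat (S.gl ρ y' e')) - e' (S.dat (S.gl ρ y' e')))‖ := by
  have n := h.near' hρ hρ' a
  have n' := h.near' hρ hρ' a'
  have m' := h.gl_ball hρ hρ' a'
  have e0 := h.gl_eq hρ hρ' a'
  have h1 := mv_near h.Φ_diff h.Φ_fd (h.mem' hρ hρ' a m') (h.mem' hρ hρ' a' m')
  have h2 := n.ctr.lip _ n.sol_mem _ n'.sol_mem
  have h3 := n.dist_sol n'.sol_mem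
  rw [n.sol_eq, map_zero, sub_zero] at h2
  set ξ' := S.gl ρ y' e' with hξ'
  set v : P × W := (y - y', e (S.dat ξ') - e' (S.dat ξ')) with hv
  have h4 : (ξ', y, e (S.dat ξ')) - (ξ', y', e' (S.dat ξ')) = (0, v) := by simp [hv]
  have h5 : ‖((0 : Ξ), v)‖ = ‖v‖ := by simp [Prod.norm_def]
  rw [e0, sub_zero, h4, h5] at h1
  change ‖S.F y e ξ' - _‖ ≤ _ at h1
  change ‖S.gl ρ y e - (ξ' - S.A.symm (S.F y e ξ'))‖ ≤ 2 * σ * ‖S.gl ρ y e - ξ'‖ at h2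
  change ‖ξ' - S.gl ρ y e‖ ≤ 2 * ‖S.A.symm (S.F y e ξ')‖ at h3
  set D := fderiv ℂ S.Φ 0
  set N := ‖(S.A.symm : H →L[ℂ] Ξ)‖
  have hN : ∀ z, ‖S.A.symm z‖ ≤ N * ‖z‖ := (S.A.symm : H →L[ℂ] Ξ).le_opNorm
  have hN0 : 0 ≤ N := norm_nonneg _
  have hσ := n.σ_nonneg
  have hσ' := n.σ_le
  have h6 : ‖S.F y e ξ'‖ ≤ (‖D‖ + σ) * ‖v‖ := by
    have := norm_add_le (S.F y e ξ' - D (0, v)) (D (0, v))
    have h7 := D.le_opNorm (0, v)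
    rw [sub_add_cancel] at this
    rw [h5] at h7
    linarith
  have h8 : ‖S.gl ρ y e - ξ'‖ ≤ 2 * (N * ((‖D‖ + σ) * ‖v‖)) := by
    rw [norm_sub_rev]
    exact h3.trans (mul_le_mul_of_nonneg_left
      ((hN _).trans (mul_le_mul_of_nonneg_left h6 hN0)) (by norm_num))
  have hv0 := norm_nonneg v
  have hD0 := norm_nonneg D
  have hNv : 0 ≤ N * ‖v‖ := by positivity
  refine ⟨h8.trans ?_, ?_⟩
  · change _ ≤ N * (4 * ‖D‖ + 2) * ‖v‖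
    nlinarith [mul_nonneg hNv hD0]
  · have h9 : S.gl ρ y e - ξ' - S.Rs v = (S.gl ρ y e - (ξ' - S.A.symm (S.F y e ξ'))) -
        S.A.symm (S.F y e ξ' - D (0, v)) := by
      simp only [Rs, neg_apply, ContinuousLinearMap.comp_apply,
        ContinuousLinearMap.inr_apply, ContinuousLinearEquiv.coe_coe, map_sub]
      abel
    rw [h9]
    refine (norm_sub_le _ _).trans ?_
    have h10 := (hN _).trans (mul_le_mul_of_nonneg_left h1 hN0)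
    have h11 := mul_le_mul_of_nonneg_left h8 (by positivity : 0 ≤ 2 * σ)
    change _ ≤ σ * (N * (4 * ‖D‖ + 2)) * ‖v‖
    nlinarith [mul_nonneg hσ hNv, mul_le_mul_of_nonneg_left hσ' (mul_nonneg hσ hNv)]

/-- the glued solution is as small as the parameter and the value of the end map at `0` -/
theorem Sc.base (h : S.Sc ρ₀ c L σ) (hρ : 0 < ρ) (hρ' : ρ ≤ ρ₀) {y : P} {e : B → W}
    (a : S.Adm c L ρ y e) : ‖S.gl ρ y e‖ ≤ S.κ * ‖(y, e 0)‖ := by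
  have hc := h.c_pos
  have a' : S.Adm c L ρ 0 S.P₀ := ⟨by rw [norm_zero]; positivity,
    S.P₀.differentiable.differentiableOn, fun b _ => by rw [sub_self, norm_zero]; positivity⟩
  have h0 : S.gl ρ 0 S.P₀ = 0 := ((h.near' hρ hρ' a').eq_sol (mem_closedBall_self hρ.le)
    (by simp only [F, S.dat0, map_zero]; exact S.Φ0)).symm
  simpa [h0, S.dat0] using (h.resp hρ hρ' a a').1

/-- **Jacobian** of an output `Z`, Lipschitz form -/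
theorem Sc.jac (h : S.Sc ρ₀ c L σ) (hρ : 0 < ρ) (hρ' : ρ ≤ ρ₀) {y y' : P} {e e' : B → W}
    (a : S.Adm c L ρ y e) (a' : S.Adm c L ρ y' e') {Z : Ξ → V} {Z₀ : Ξ →L[ℂ] V} {σ' : ℝ}
    (hσ' : 0 ≤ σ') (hZ : ∀ x ∈ ball (0 : Ξ) (2 * ρ), ∀ x' ∈ ball (0 : Ξ) (2 * ρ),
      ‖Z x - Z x' - Z₀ (x - x')‖ ≤ σ' * ‖x - x'‖) (w : W) :
    ‖Z (S.gl ρ y e) - Z (S.gl ρ y' e') - Z₀ (S.Rs (y - y', w))‖ ≤
      (σ' + ‖Z₀‖ * σ) * S.κ * ‖(y - y', e (S.dat (S.gl ρ y' e')) - e' (S.dat (S.gl ρ y' e')))‖ +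
      ‖Z₀‖ * ‖S.Rs‖ * ‖e (S.dat (S.gl ρ y' e')) - e' (S.dat (S.gl ρ y' e')) - w‖ := by
  obtain ⟨h1, h2⟩ := h.resp hρ hρ' a a'
  have h3 := hZ _ (h.gl_ball hρ hρ' a) _ (h.gl_ball hρ hρ' a')
  set ξ := S.gl ρ y e
  set ξ' := S.gl ρ y' e'
  set Δ := e (S.dat ξ') - e' (S.dat ξ')
  have h4 : Z ξ - Z ξ' - Z₀ (S.Rs (y - y', w)) = (Z ξ - Z ξ' - Z₀ (ξ - ξ')) +
      (Z₀ (ξ - ξ' - S.Rs (y - y', Δ)) + Z₀ (S.Rs (0, Δ - w))) := by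
    have : ((0 : P), Δ - w) = (y - y', Δ) - (y - y', w) := by simp
    rw [this]
    simp only [map_sub]
    abel
  have h5 := (Z₀.le_opNorm _).trans (mul_le_mul_of_nonneg_left h2 (norm_nonneg Z₀))
  have h6 := (Z₀.le_opNorm _).trans
    (mul_le_mul_of_nonneg_left (S.Rs.le_opNorm (0, Δ - w)) (norm_nonneg Z₀))
  have h7 : ‖((0 : P), Δ - w)‖ = ‖Δ - w‖ := by simp [Prod.norm_def]
  have h8 := mul_le_mul_of_nonneg_left h1 hσ'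
  rw [h7] at h6
  rw [h4]
  refine (norm_add_le _ _).trans ((add_le_add_right (norm_add_le _ _) _).trans ?_)
  nlinarith

/-- **reality** -/
theorem Sc.gl_map (h : S.Sc ρ₀ c L σ) (hρ : 0 < ρ) (hρ' : ρ ≤ ρ₀) {y y' : P} {e e' : B → W}
    (a : S.Adm c L ρ y e) (a' : S.Adm c L ρ y' e') {κ : Ξ → Ξ} (hκ : ∀ x, ‖κ x‖ = ‖x‖)
    (he : ∀ x ∈ closedBall (0 : Ξ) ρ, S.F y e x = 0 → S.F y' e' (κ x) = 0) :
    S.gl ρ y' e' = κ (S.gl ρ y e) := (h.near' hρ hρ' a).sol_map (h.near' hρ hρ' a') hκ he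

omit [CompleteSpace Ξ] in
/-- the scales can be decreased -/
theorem Sc.mono (h : S.Sc ρ₀ c L σ) {ρ₁ : ℝ} (h0 : 0 < ρ₁) (h1 : ρ₁ ≤ ρ₀) : S.Sc ρ₁ c L σ := by
  have hb : ball (0 : Ξ × P × W) (L * L * ρ₁) ⊆ ball 0 (L * L * ρ₀) :=
    ball_subset_ball (mul_le_mul_of_nonneg_left h1 (mul_self_nonneg L))
  have hb' : ball (0 : Ξ) (2 * ρ₁) ⊆ ball 0 (2 * ρ₀) := ball_subset_ball (by linarith)
  exact ⟨h0, h.c_pos, h.c_le, h.L_ge, fun ρ hρ => h.dat_mem ρ (hρ.trans h1), h.dat_diff.mono hb',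
    fun ξ hξ => h.dat_fd ξ (hb' hξ), h.Φ_diff.mono hb, fun u hu v hv => h.Φ_lip u (hb hu) v (hb hv),
    fun u hu => h.Φ_fd u (hb hu), fun ρ hρ hρ' => h.mem ρ hρ (hρ'.trans h1),
    fun ρ hρ hρ' => h.near ρ hρ (hρ'.trans h1)⟩

end Sys

end Crest.Agent.N250.Gl

end
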