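import Crest.Agent.N250.Gl.Xi
import Crest.Agent.N250.R0.Stm
import Crest.Agent.N250.Xi.Tip
import Crest.Agent.N250.Xi.Sc

/-!
# Row 250 (helper18): the glued family of an abstract system, in the coordinates of `R0.Glued`
-/

set_option autoImplicit false
set_option linter.unusedSectionVars false
open Set Filter Topology Metric

noncomputable section

namespace Crest.Agent.N250.Gl

open B2 (aa ofR)
open Gi (hat)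
open R0 (mk Om DomA hz)

variable {ι κ : Type}

/-- the prescribed pairings of a point -/
def yy (z : ι ⊕ κ → ℂ) : ι → ℂ := fun i => z (Sum.inl i)

/-- the domain of the end parameters `(X, a)` -/
def OmE (K X0 θ : ℝ) : Set (ℂ × (κ → ℂ)) :=
  {q | X0 < q.1.re ∧ |q.1.im| < θ / q.1.re ∧ ∀ j, B1.Adm K q.1.re (q.2 j)}

theorem hat_le {K X : ℝ} {a : ℂ} (h : B1.Adm K X a) (hK : 0 ≤ K) (hX : 2 ≤ X) :
    ‖hat X a‖ ≤ 30 / X := by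
  have h1 := Xi.Tip.norm_le h hK
  have h2 := (Xi.lam_le h hK hX).trans
    ((Xi.log_le (by linarith)).trans (mul_le_mul_of_nonneg_left (Xi.quarter' (by linarith))
      (by norm_num)))
  have h3 : ‖hat X a‖ ≤ ‖a‖ + ‖a‖ ^ 2 * (18 * X) := by
    refine (norm_add_le _ _).trans (add_le_add_right ?_ _)
    rw [norm_mul, norm_pow]
    exact mul_le_mul_of_nonneg_left h2 (by positivity)
  have h0 : 0 ≤ ‖a‖ * X := by have := norm_nonneg a; positivity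
  have h4 : ‖a‖ * X ≤ 5 / 4 := by nlinarith
  rw [le_div_iff₀ (by linarith)]
  nlinarith

variable [Fintype ι] [Fintype κ]

theorem isOpen_adm (K : ℝ) : IsOpen {q : ℝ × ℂ | 0 < q.1 ∧ B1.Adm K q.1 q.2} := by
  refine ContinuousOn.isOpen_inter_preimage (s := {q : ℝ × ℂ | 0 < q.1}) (t := Iio (9 / 8))
    (f := fun q : ℝ × ℂ => ‖q.2 * (q.1 : ℂ) ^ 2 / 2 - 1 / 8‖ + 2 * K / q.1 ^ 2) ?_
    (isOpen_lt continuous_const continuous_fst) isOpen_Iio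
  exact (Continuous.continuousOn (by fun_prop)).add (continuousOn_const.div (by fun_prop)
    fun q hq => pow_ne_zero _ (ne_of_gt hq))

theorem isOpen_OmE (K : ℝ) {X0 : ℝ} (h0 : 0 ≤ X0) (θ : ℝ) : IsOpen (OmE (κ := κ) K X0 θ) := by
  have h1 : OmE (κ := κ) K X0 θ = {q | X0 < q.1.re} ∩ ({q | |q.1.im| * q.1.re < θ} ∩
      ⋂ j, (fun q => (q.1.re, q.2 j)) ⁻¹' {q : ℝ × ℂ | 0 < q.1 ∧ B1.Adm K q.1 q.2}) := by
    ext q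
    simp only [OmE, mem_ofPred_eq, mem_inter_iff, mem_iInter, mem_preimage]
    refine and_congr_right fun h => and_congr (lt_div_iff₀ (h0.trans_lt h)) ?_
    exact ⟨fun h' j => ⟨h0.trans_lt h, h' j⟩, fun h' j => (h' j).2⟩
  rw [h1]
  exact (isOpen_lt continuous_const (by fun_prop)).inter
    ((isOpen_lt (by fun_prop) continuous_const).inter
      (isOpen_iInter_of_finite fun j => (isOpen_adm K).preimage (by fun_prop)))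

theorem mem_Om {r K X0 θ : ℝ} (hr : 0 < r) {q : ℂ × (ι ⊕ κ → ℂ)} :
    q ∈ Om r K X0 θ ↔ yy q.2 ∈ ball (0 : ι → ℂ) r ∧ (q.1, aa q.2) ∈ OmE K X0 θ := by
  rw [mem_ball_zero_iff, pi_norm_lt_iff hr]
  exact ⟨fun h => ⟨h.2.2.1, h.1, h.2.1, h.2.2.2⟩, fun h => ⟨h.2.1, h.2.2.1, h.1, h.2.2.2⟩⟩

theorem diff_yy : Differentiable ℂ (yy : (ι ⊕ κ → ℂ) → ι → ℂ) :=
  differentiable_pi.2 fun _ => differentiable_apply _

theorem diff_aa : Differentiable ℂ (aa : (ι ⊕ κ → ℂ) → κ → ℂ) :=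
  differentiable_pi.2 fun _ => differentiable_apply _

theorem isOpen_Om {r : ℝ} (hr : 0 < r) (K : ℝ) {X0 : ℝ} (h0 : 0 ≤ X0) (θ : ℝ) :
    IsOpen (Om (ι := ι) (κ := κ) r K X0 θ) := by
  have : Om (ι := ι) (κ := κ) r K X0 θ = (fun q => yy q.2) ⁻¹' ball 0 r ∩
      (fun q => (q.1, aa q.2)) ⁻¹' OmE K X0 θ := Set.ext fun _ => mem_Om hr
  rw [this]
  exact (isOpen_ball.preimage (diff_yy.continuous.comp continuous_snd)).inter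
    ((isOpen_OmE K h0 θ).preimage
      (continuous_fst.prodMk (diff_aa.continuous.comp continuous_snd)))

theorem norm_yy (z : ι ⊕ κ → ℂ) : ‖yy z‖ ≤ ‖z‖ :=
  (pi_norm_le_iff_of_nonneg (norm_nonneg _)).2 fun _ => norm_le_pi_norm z _

theorem norm_aa (z : ι ⊕ κ → ℂ) : ‖aa z‖ ≤ ‖z‖ :=
  (pi_norm_le_iff_of_nonneg (norm_nonneg _)).2 fun _ => norm_le_pi_norm z _

variable {Ξ H B W : Type*} [NormedAddCommGroup Ξ] [NormedSpace ℂ Ξ] [NormedAddCommGroup H]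
  [NormedSpace ℂ H] [NormedAddCommGroup B] [NormedSpace ℂ B] [NormedAddCommGroup W]
  [NormedSpace ℂ W]

/-- the end maps for one order `N` of the far slope -/
structure EF (En : (κ → ℂ) × B → W) (cB : B → B) (cW : W → W) (rb K C0 : ℝ)
    (e : ℂ × (κ → ℂ) → B → W) (X0 θ C k : ℝ) : Prop where
  K_nonneg : 0 ≤ K
  θ_pos : 0 < θ
  k_pos : 0 < k
  hol : DifferentiableOn ℂ (fun z : (ℂ × (κ → ℂ)) × B => e z.1 z.2) (OmE K X0 θ ×ˢ ball 0 rb)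
  est : ∀ X : ℝ, X0 < X → ∀ a : κ → ℂ, (∀ j, B1.Adm K X (a j)) → ∀ b ∈ ball (0 : B) rb,
    ‖e (X, a) b - En (fun j => hat X (a j), b)‖ ≤ (C0 + C * X ^ (-k)) / X ^ 4
  cx : ∀ q ∈ OmE (κ := κ) K X0 θ, ∀ b ∈ ball (0 : B) rb,
    ‖e q b - e (q.1.re, q.2) b‖ ≤ C * (q.1.re * |q.1.im|)
  cj : ∀ X : ℝ, X0 < X → ∀ a : κ → ℂ, (∀ j, B1.Adm K X (a j)) → ∀ b ∈ ball (0 : B) rb,
    e (X, star a) (cB b) = cW (e (X, a) b)

/-- the part of the data that does not depend on `N` -/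
structure Ab (S : Sys Ξ H (ι → ℂ) B W) (I : Ξ → ι ⊕ κ → ℂ) (En : (κ → ℂ) × B → W) (cΞ : Ξ → Ξ)
    (cB : B → B) (cW : W → W) : Prop where
  hI : HolAt I
  I0 : I 0 = 0
  ΦI : ∀ ξ y w, S.Φ (ξ, y, w) = 0 → yy (I ξ) = y
  hE : HolAt En
  E0 : En 0 = 0
  hP : ∀ b, fderiv ℂ En 0 (0, b) = S.P₀ b
  inj : ∀ α, fderiv ℂ I 0 (S.Rs (0, fderiv ℂ En 0 (α, 0))) = 0 → α = 0
  norm_c : ∀ ξ, ‖cΞ ξ‖ = ‖ξ‖
  cΦ : ∀ᶠ ξ in 𝓝 (0 : Ξ), ∀ y w, S.Φ (ξ, y, w) = 0 → S.Φ (cΞ ξ, star y, cW w) = 0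
  cdat : ∀ᶠ ξ in 𝓝 (0 : Ξ), S.dat (cΞ ξ) = cB (S.dat ξ)
  cI : ∀ᶠ ξ in 𝓝 (0 : Ξ), I (cΞ ξ) = star (I ξ)
  cE : ∀ᶠ z in 𝓝 (0 : (κ → ℂ) × B), En (star z.1, cB z.2) = cW (En z)

/-- the pairings for the limit ends -/
structure Th (Θ : (ι ⊕ κ → ℂ) → ι ⊕ κ → ℂ) (r C1 : ℝ) : Prop where
  r_pos : 0 < r
  hΘ : DifferentiableOn ℂ Θ (ball 0 r)
  Θ_inl : ∀ z ∈ ball (0 : ι ⊕ κ → ℂ) r, ∀ i, Θ z (Sum.inl i) = z (Sum.inl i)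
  Θ_zero : Θ 0 = 0
  Θ_real : ∀ x : ι ⊕ κ → ℝ, ‖x‖ < r → ∀ l, (Θ (ofR x) l).im = 0
  jac : ∀ α : κ → ℂ, ‖α‖ ≤ C1 * ‖fderiv ℂ Θ 0 (mk 0 α)‖

/-- the glued family `ξ`, of size at most `ρ` -/
structure Fix (S : Sys Ξ H (ι → ℂ) B W) (I : Ξ → ι ⊕ κ → ℂ) (cΞ : Ξ → Ξ)
    (e : ℂ × (κ → ℂ) → B → W) (Θ : (ι ⊕ κ → ℂ) → ι ⊕ κ → ℂ) (ξ : ℂ × (ι ⊕ κ → ℂ) → Ξ)
    (ρ r K C0 X1 θ C k : ℝ) : Prop where
  r_pos : 0 < r
  X1_ge : 2 ≤ X1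
  θ_pos : 0 < θ
  θ_le : θ ≤ 1
  k_pos : 0 < k
  hol : DifferentiableOn ℂ ξ (Om r K X1 θ)
  eq : ∀ q ∈ Om r K X1 θ, S.Φ (ξ q, yy q.2, e (q.1, aa q.2) (S.dat (ξ q))) = 0
  small : ∀ q ∈ Om r K X1 θ, ‖ξ q‖ < ρ ∧ ‖S.dat (ξ q)‖ < ρ
  holb : DifferentiableOn ℂ (fun q => S.dat (ξ q)) (Om r K X1 θ)
  holI : DifferentiableOn ℂ (fun q => I (ξ q)) (Om r K X1 θ)
  bdI : ∀ q ∈ Om r K X1 θ, ‖I (ξ q)‖ ≤ C
  cj : ∀ X : ℝ, X1 < X → ∀ w ∈ DomA r K X, ξ (X, star w) = cΞ (ξ (X, w))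
  base : ∀ ε, 0 < ε → ∃ δ, 0 < δ ∧ ∀ X : ℝ, δ⁻¹ < X → X1 < X → ∀ w ∈ DomA r K X, ‖yy w‖ < δ →
    ‖ξ (X, w)‖ < ε ∧ ‖S.dat (ξ (X, w))‖ < ε
  est : ∀ X : ℝ, X1 < X → ∀ w ∈ DomA r K X,
    ‖I (ξ (X, w)) - Θ (hz X w)‖ ≤ (C0 + C * X ^ (-k)) / X ^ 4

theorem star_ofR {σ : Type} (x : σ → ℝ) : star (ofR x) = ofR x :=
  funext fun _ => Complex.conj_ofReal _

theorem im_of_star {σ : Type} {z : σ → ℂ} (h : star z = z) (l : σ) : (z l).im = 0 :=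
  Complex.conj_eq_iff_im.1 (congrFun h l)

theorem exists_low {V : Type*} [NormedAddCommGroup V] [NormedSpace ℂ V] (M : (κ → ℂ) →L[ℂ] V)
    (h : ∀ α, M α = 0 → α = 0) : ∃ C, 0 < C ∧ ∀ α, ‖α‖ ≤ C * ‖M α‖ := by
  obtain ⟨K, h0, hK⟩ := (M : (κ → ℂ) →ₗ[ℂ] V).exists_antilipschitzWith (LinearMap.ker_eq_bot'.2 h)
  exact ⟨K, h0, fun α => by simpa using hK.le_mul_dist α 0⟩

theorem fd_dir {E V : Type*} [NormedAddCommGroup E] [NormedSpace ℂ E] [NormedAddCommGroup V]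
    [NormedSpace ℂ V] {f : E → V} (hf : DifferentiableAt ℂ f 0) {v : E} {m : V} {τ : ℝ}
    (h : ∀ᶠ t : ℂ in 𝓝 0, ‖f (t • v) - f 0 - t • m‖ ≤ τ * ‖t‖) : ‖fderiv ℂ f 0 v - m‖ ≤ τ := by
  have h1 : HasDerivAt (fun t : ℂ => t • v) v 0 := by simpa using (hasDerivAt_id (0 : ℂ)).smul_const v
  have h2 : HasFDerivAt f (fderiv ℂ f 0) ((fun t : ℂ => t • v) 0) := by simpa using hf.hasFDerivAt
  have h3 : HasDerivAt (fun t : ℂ => f (t • v) - t • m) (fderiv ℂ f 0 v - m) 0 :=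
    (h2.comp_hasDerivAt 0 h1).sub (by simpa using (hasDerivAt_id (0 : ℂ)).smul_const m)
  have hτ : 0 ≤ τ := by
    obtain ⟨t, ht, h0⟩ := ((h.filter_mono nhdsWithin_le_nhds).and
      (self_mem_nhdsWithin (a := (0 : ℂ)) (s := {0}ᶜ))).exists
    exact nonneg_of_mul_nonneg_left ((norm_nonneg _).trans ht) (norm_pos_iff.2 h0)
  refine h3.le_of_lip' hτ (h.mono fun t ht => ?_)
  rw [sub_zero, zero_smul, zero_smul, sub_zero, sub_right_comm]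
  exact ht

end Crest.Agent.N250.Gl

end
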