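import Crest.Agent.N250.Gl.Fix

/-!
# Row 250 (helper18): existence of the glued family of an abstract system
-/

set_option autoImplicit false
set_option linter.unusedSectionVars false
open Set Filter Topology Metric

noncomputable section

namespace Crest.Agent.N250.Gl

open B2 (aa ofR)
open Gi (hat)
open R0 (Om DomA hz)
open Sys

variable {ι κ : Type} [Fintype ι] [Fintype κ]
  {Ξ H B W : Type*} [NormedAddCommGroup Ξ] [NormedSpace ℂ Ξ] [NormedAddCommGroup H]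
  [NormedSpace ℂ H] [NormedAddCommGroup B] [NormedSpace ℂ B] [NormedAddCommGroup W]
  [NormedSpace ℂ W] [CompleteSpace Ξ]
  {S : Sys Ξ H (ι → ℂ) B W} {I : Ξ → ι ⊕ κ → ℂ} {En : (κ → ℂ) × B → W} {cΞ : Ξ → Ξ}
  {cB : B → B} {cW : W → W} {ρ₀ c L σ ρ r m : ℝ}

theorem adm_star {K X : ℝ} {a : ℂ} (h : B1.Adm K X a) : B1.Adm K X (star a) := by
  have : star a * (X : ℂ) ^ 2 / 2 - 1 / 8 = star (a * (X : ℂ) ^ 2 / 2 - 1 / 8) := by simp
  unfold B1.Adm at h ⊢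
  rwa [this, norm_star]

theorem DomA_star {K X : ℝ} {w : ι ⊕ κ → ℂ} (h : w ∈ DomA r K X) : star w ∈ DomA r K X :=
  ⟨fun i => (norm_star _).trans_lt (h.1 i), fun j => adm_star (h.2 j)⟩

theorem real_mem {K X1 θ X : ℝ} (h0 : 0 ≤ X1) (hθ : 0 < θ) (hX : X1 < X) {w : ι ⊕ κ → ℂ}
    (h : w ∈ DomA r K X) : ((X : ℂ), w) ∈ Om r K X1 θ :=
  ⟨hX, by simpa using div_pos hθ (h0.trans_lt hX), h⟩

theorem OmE_mono {K X0 X1 θ θ1 : ℝ} (h0 : 0 ≤ X1) (h1 : X0 ≤ X1) (h2 : θ1 ≤ θ) :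
    OmE (κ := κ) K X1 θ1 ⊆ OmE K X0 θ := fun _ h =>
  ⟨h1.trans_lt h.1, h.2.1.trans_le (div_le_div_of_nonneg_right h2 (h0.trans h.1.le)), h.2.2⟩

/-- conjugation acts on the ball of radius `m` -/
structure Cj (S : Sys Ξ H (ι → ℂ) B W) (I : Ξ → ι ⊕ κ → ℂ) (En : (κ → ℂ) × B → W) (cΞ : Ξ → Ξ)
    (cB : B → B) (cW : W → W) (m : ℝ) : Prop where
  Φ : ∀ ξ ∈ ball (0 : Ξ) m, ∀ y w, S.Φ (ξ, y, w) = 0 → S.Φ (cΞ ξ, star y, cW w) = 0
  dat : ∀ ξ ∈ ball (0 : Ξ) m, S.dat (cΞ ξ) = cB (S.dat ξ)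
  I : ∀ ξ ∈ ball (0 : Ξ) m, I (cΞ ξ) = star (I ξ)
  E : ∀ z ∈ ball (0 : (κ → ℂ) × B) m, En (star z.1, cB z.2) = cW (En z)

theorem Cj.gl (j : Cj S I En cΞ cB cW m) (hn : ∀ ξ, ‖cΞ ξ‖ = ‖ξ‖) (h : S.Ch I En ρ₀ c L σ ρ r)
    (hm : 2 * (L * ρ) ≤ m) {y : ι → ℂ} {e e' : B → W} (a : S.Adm c L ρ y e)
    (a' : S.Adm c L ρ (star y) e') (he : ∀ b ∈ ball (0 : B) (L * ρ), e' (cB b) = cW (e b)) :
    S.gl ρ (star y) e' = cΞ (S.gl ρ y e) := by
  refine h.sc.gl_map h.ρ_pos h.ρ_le a a' hn fun x hx h0 => ?_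
  have hρ := h.ρ_pos
  have hx1 : x ∈ ball (0 : Ξ) (2 * ρ) := closedBall_subset_ball (by linarith) hx
  have hx2 : x ∈ ball (0 : Ξ) m := ball_subset_ball (by nlinarith [h.sc.L_ge]) hx1
  rw [F, j.dat x hx2, he _ (h.sc.dat_mem ρ h.ρ_le x hx1)]
  exact j.Φ x hx2 _ _ h0

theorem Ab.th (a : Ab S I En cΞ cB cW) (j : Cj S I En cΞ cB cW m) (h : S.Ch I En ρ₀ c L σ ρ r)
    (hm : 2 * (L * ρ) ≤ m) {Cm : ℝ} (hC : 0 < Cm)
    (hl : ∀ α, ‖α‖ ≤ Cm * ‖fderiv ℂ I 0 (S.Rs (0, fderiv ℂ En 0 (α, 0)))‖)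
    (hσ : Cm * (σ * ((1 + ‖fderiv ℂ I 0‖) * S.κ * (‖fderiv ℂ En 0‖ + 1) +
      ‖fderiv ℂ I 0‖ * ‖S.Rs‖)) ≤ 1 / 2) :
    Th (fun z => I (Ch.xi S En ρ (yy z, aa z))) r (2 * Cm) := by
  have hb : ∀ z ∈ ball (0 : ι ⊕ κ → ℂ) r,
      (yy z, aa z) ∈ ball (0 : ι → ℂ) r ×ˢ ball (0 : κ → ℂ) r := fun z hz =>
    ⟨mem_ball_zero_iff.2 ((norm_yy z).trans_lt (mem_ball_zero_iff.1 hz)),
      mem_ball_zero_iff.2 ((norm_aa z).trans_lt (mem_ball_zero_iff.1 hz))⟩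
  have hd : DifferentiableOn ℂ (fun z : ι ⊕ κ → ℂ => I (Ch.xi S En ρ (yy z, aa z))) (ball 0 r) :=
    h.Th_diffOn.comp (f := fun z : ι ⊕ κ → ℂ => (yy z, aa z))
      (diff_yy.prodMk diff_aa).differentiableOn hb
  have hρ := h.ρ_pos
  have hL := h.sc.L_ge
  have hr := h.r_pos
  refine ⟨hr, hd, fun z hz i => ?_, ?_, fun x hx l => im_of_star ?_ l, fun α => ?_⟩
  · exact congrFun (a.ΦI _ _ _ (h.sc.gl_eq hρ h.ρ_le (h.adm0 (h.y_le (hb z hz).1) (hb z hz).2))) i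
  · exact (congrArg I (h.xi_zero a.E0)).trans a.I0
  · have hz : ofR x ∈ ball (0 : ι ⊕ κ → ℂ) r := by
      rw [mem_ball_zero_iff, pi_norm_lt_iff hr]
      exact fun i => by simpa [ofR] using (norm_le_pi_norm x i).trans_lt hx
    have a0 := h.adm0 (h.y_le (hb _ hz).1) (hb _ hz).2
    have e1 : star (yy (ofR x)) = yy (ofR x) := congrArg yy (star_ofR x)
    have e2 : star (aa (ofR x)) = aa (ofR x) := congrArg aa (star_ofR x)
    have h1 := j.gl a.norm_c h hm a0 (e1.symm ▸ a0) fun b hb' => by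
      have h2 : ‖aa (ofR x)‖ < m := (mem_ball_zero_iff.1 (hb _ hz).2).trans_le (by
        nlinarith [h.r_le, h.sc.c_le])
      have h3 : ‖b‖ < m := (mem_ball_zero_iff.1 hb').trans_le (by nlinarith)
      simpa [e2] using j.E (aa (ofR x), b) (mem_ball_zero_iff.2 (max_lt h2 h3))
    rw [e1] at h1
    rw [← j.I _ (ball_subset_ball (by nlinarith) (h.xi_ball (hb _ hz)))]
    exact (congrArg I h1).symm
  · have h1 := fd_dir (hd.differentiableAt (ball_mem_nhds 0 hr)) (v := R0.mk 0 α)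
      (m := fderiv ℂ I 0 (S.Rs (0, fderiv ℂ En 0 (α, 0))))
      (τ := σ * ((1 + ‖fderiv ℂ I 0‖) * S.κ * (‖fderiv ℂ En 0‖ + 1) + ‖fderiv ℂ I 0‖ * ‖S.Rs‖) * ‖α‖)
      (by
        have hc : ContinuousAt (fun t : ℂ => t • α) 0 := by fun_prop
        filter_upwards [hc.preimage_mem_nhds (t := ball 0 r) (by simpa using ball_mem_nhds (0 : κ → ℂ) hr)]
          with t ht
        have h2 := h.lin (mem_ball_self hr) (a := t • α) ht (mem_ball_self hr)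
        have e1 : yy (t • R0.mk (0 : ι ⊕ κ → ℂ) α) = 0 := funext fun i => by simp [yy, R0.mk]
        have e2 : aa (t • R0.mk (0 : ι ⊕ κ → ℂ) α) = t • α := rfl
        have e3 : (t • α - 0, (0 : B)) = t • (α, 0) := by simp
        have e4 : ∀ w : W, ((0 : ι → ℂ), t • w) = t • (0, w) := fun w => by simp
        rw [e3, map_smul, e4, map_smul, map_smul, sub_zero, norm_smul] at h2
        rw [e1, e2]
        exact h2.trans (le_of_eq (by ring)))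
    have h2 := hl α
    have h3 := norm_sub_norm_le (fderiv ℂ I 0 (S.Rs (0, fderiv ℂ En 0 (α, 0))))
      (fderiv ℂ (fun z : ι ⊕ κ → ℂ => I (Ch.xi S En ρ (yy z, aa z))) 0 (R0.mk 0 α))
    rw [norm_sub_rev] at h3
    have h4 := mul_le_mul_of_nonneg_left (h3.trans h1) hC.le
    have h5 := mul_le_mul_of_nonneg_right hσ (norm_nonneg α)
    nlinarith

theorem EF.fix {rb K C0 X0 θ C k ρ1 C1 : ℝ} {e : ℂ × (κ → ℂ) → B → W}
    (f : EF En cB cW rb K C0 e X0 θ C k) (a : Ab S I En cΞ cB cW) (j : Cj S I En cΞ cB cW m)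
    (h : S.Ch I En ρ₀ c L σ ρ r) (hm : 2 * (L * ρ) ≤ m) (h1 : m ≤ ρ1) (hb : m ≤ rb) (hC0 : 0 ≤ C0)
    (hC1 : (‖fderiv ℂ I 0‖ + 1) * S.κ ≤ C1) : ∃ ξ X1 θ1 C', X0 ≤ X1 ∧ θ1 ≤ θ ∧
      Fix S I cΞ e (fun z => I (Ch.xi S En ρ (yy z, aa z))) ξ ρ1 r K (C1 * C0) X1 θ1 C' k := by
  have hρ := h.ρ_pos
  have hL := h.sc.L_ge
  have hr := h.r_pos
  have hc := h.sc.c_pos
  have hθ := f.θ_pos
  have hκ := S.κ_nonneg
  have hCa := abs_nonneg C
  obtain ⟨θ1, t0, t1, t2, t3⟩ : ∃ θ1, 0 < θ1 ∧ θ1 ≤ θ ∧ θ1 ≤ 1 ∧ |C| * θ1 ≤ c * ρ / 4 := by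
    refine ⟨min (min θ 1) (c * ρ / (4 * (|C| + 1))), by positivity,
      (min_le_left _ _).trans (min_le_left _ _), (min_le_left _ _).trans (min_le_right _ _), ?_⟩
    have := (le_div_iff₀ (by positivity)).1 (min_le_right (min θ 1) (c * ρ / (4 * (|C| + 1))))
    have h0 : 0 < min (min θ 1) (c * ρ / (4 * (|C| + 1))) := by positivity
    nlinarith
  obtain ⟨X1, x0, x1, x2, x3⟩ : ∃ X1, X0 ≤ X1 ∧ 2 ≤ X1 ∧ 30 / r ≤ X1 ∧
      (C0 + |C|) / (c * ρ / 4) ≤ X1 :=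
    ⟨max (max X0 2) (max (30 / r) ((C0 + |C|) / (c * ρ / 4))),
      le_max_of_le_left (le_max_left _ _), le_max_of_le_left (le_max_right _ _),
      le_max_of_le_right (le_max_left _ _), le_max_of_le_right (le_max_right _ _)⟩
  have hsub : ball (0 : B) (L * ρ) ⊆ ball 0 rb := ball_subset_ball (by nlinarith)
  have hE := OmE_mono (κ := κ) (K := K) (by linarith : 0 ≤ X1) x0 t1
  have hh : ∀ X, X1 < X → ∀ a : κ → ℂ, (∀ j, B1.Adm K X (a j)) →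
      ‖fun j => hat X (a j)‖ ≤ 30 / X ∧ (fun j => hat X (a j)) ∈ ball (0 : κ → ℂ) r := by
    intro X hX a ha
    have h2 : ‖fun j => hat X (a j)‖ ≤ 30 / X :=
      (pi_norm_le_iff_of_nonneg (div_nonneg (by norm_num) (by linarith))).2 fun j =>
        hat_le (ha j) f.K_nonneg (by linarith)
    refine ⟨h2, mem_ball_zero_iff.2 (h2.trans_lt ?_)⟩
    rw [div_lt_iff₀ (by linarith), mul_comm, ← div_lt_iff₀ hr]
    linarith
  have ht : ∀ X, X1 < X → (C0 + C * X ^ (-k)) / X ^ 4 ≤ (C0 + |C|) / X := by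
    intro X hX
    have h2 : X ^ (-k) ≤ 1 := Real.rpow_le_one_of_one_le_of_nonpos (by linarith) (by linarith [f.k_pos])
    have h3 : 0 ≤ X ^ (-k) := Real.rpow_nonneg (by linarith) _
    refine div_le_div₀ (by positivity) (by nlinarith [le_abs_self C]) (by linarith) ?_
    exact le_self_pow₀ (by linarith) (by norm_num)
  have hA : ∀ q ∈ Om (ι := ι) (κ := κ) r K X1 θ1, S.Adm c L ρ (yy q.2) (e (q.1, aa q.2)) := by
    intro q hq
    obtain ⟨q1, q2⟩ := (mem_Om hr).1 hq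
    refine h.adm (h.y_le q1) (hh _ q2.1 _ q2.2.2).2
      (f.hol.comp (f := fun b => ((q.1, aa q.2), b)) (by fun_prop) fun b hb => ⟨hE q2, hsub hb⟩)
      fun b hb => ?_
    have h2 := f.cx _ (hE q2) b (hsub hb)
    have h3 := (f.est _ (hE q2).1 _ q2.2.2 b (hsub hb)).trans (ht _ q2.1)
    have h4 : X1 < q.1.re := q2.1
    have h5 : q.1.re * |q.1.im| ≤ θ1 := by
      rw [mul_comm, ← le_div_iff₀ (by linarith)]; exact q2.2.1.le
    have h6 : (C0 + |C|) / q.1.re ≤ c * ρ / 4 := by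
      rw [div_le_iff₀ (by linarith), mul_comm, ← div_le_iff₀ (by positivity)]; linarith
    have h7 : C * (q.1.re * |q.1.im|) ≤ |C| * θ1 :=
      mul_le_mul (le_abs_self C) h5 (mul_nonneg (by linarith) (abs_nonneg _)) hCa
    exact (norm_sub_le_norm_sub_add_norm_sub _ (e (q.1.re, aa q.2) b) _).trans (by linarith)
  have hd : DifferentiableOn ℂ (fun q : ℂ × (ι ⊕ κ → ℂ) => S.gl ρ (yy q.2) (e (q.1, aa q.2)))
      (Om r K X1 θ1) :=
    h.sc.gl_diffOn hρ h.ρ_le (isOpen_Om hr K (X0 := X1) (by linarith) θ1)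
      (y := fun q : ℂ × (ι ⊕ κ → ℂ) => yy q.2)
      (e := fun q : ℂ × (ι ⊕ κ → ℂ) => e (q.1, aa q.2)) hA
      (by have := diff_yy (ι := ι) (κ := κ); fun_prop)
      (f.hol.comp (f := fun z : (ℂ × (ι ⊕ κ → ℂ)) × B => ((z.1.1, aa z.1.2), z.2))
        (by have := diff_aa (ι := ι) (κ := κ); fun_prop)
        fun z hz => ⟨hE ((mem_Om hr).1 hz.1).2, hsub hz.2⟩)
  have hg := fun q hq => h.sc.gl_ball hρ h.ρ_le (hA q hq)
  have hI := norm_nonneg (fderiv ℂ I 0)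
  refine ⟨_, X1, θ1, (‖fderiv ℂ I 0‖ + 1) * (2 * ρ + S.κ * |C|), x0, t1, hr, x1, t0, t2, f.k_pos, hd,
    fun q hq => h.sc.gl_eq hρ h.ρ_le (hA q hq), fun q hq => ⟨?_, ?_⟩,
    h.sc.dat_diff.comp hd fun q hq => ball_subset_ball (by linarith [h.ρ_le]) (hg q hq),
    h.Z_diff.comp hd hg, fun q hq => ?_, fun X hX w hw => ?_, fun ε hε => ?_, fun X hX w hw => ?_⟩
  · exact (mem_ball_zero_iff.1 (hg q hq)).trans_le (by nlinarith)
  · exact (mem_ball_zero_iff.1 (h.sc.dat_gl hρ h.ρ_le (hA q hq))).trans_le (by nlinarith)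
  · have h2 := h.Z_lip (hg q hq) (mem_ball_self (by positivity))
    rw [a.I0, sub_zero, sub_zero] at h2
    exact h2.trans (mul_le_mul_of_nonneg_left
      ((mem_ball_zero_iff.1 (hg q hq)).le.trans (le_add_of_nonneg_right (by positivity)))
      (by positivity))
  · exact j.gl a.norm_c h hm (hA _ (real_mem (by linarith) t0 hX hw))
      (hA _ (real_mem (by linarith) t0 hX (DomA_star hw)))
      fun b hb => f.cj X (x0.trans_lt hX) _ hw.2 b (hsub hb)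
  · have hD := norm_nonneg (fderiv ℂ En 0)
    set T := (‖fderiv ℂ En 0‖ + 1) * 30 + (C0 + |C|) + 1 with hT
    have hT1 : 1 ≤ T := by rw [hT]; nlinarith
    refine ⟨ε / ((S.κ + 1) * T * L), by positivity, fun X hX0 hX w hw hy => ?_⟩
    set δ := ε / ((S.κ + 1) * T * L) with hδ
    have hδ0 : 0 < δ := by positivity
    have hq := real_mem (by linarith) t0 hX hw
    have h0 : (0 : B) ∈ ball (0 : B) (L * ρ) := mem_ball_self (by positivity)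
    obtain ⟨u1, u2⟩ := hh X hX _ hw.2
    have h2 := (f.est X (x0.trans_lt hX) _ hw.2 0 (hsub h0)).trans (ht X hX)
    have h3 := h.E_lin _ u2 0 (mem_ball_self hr) 0 h0
    set â : κ → ℂ := fun j => hat X (w (Sum.inr j))
    have h4 : En (0, 0) = 0 := a.E0
    have h5 := (fderiv ℂ En 0).le_opNorm (â, 0)
    have h6 : ‖(â, (0 : B))‖ = ‖â‖ := by simp [Prod.norm_def]
    rw [h4, sub_zero, sub_zero] at h3
    rw [h6] at h5
    have h7 : ‖En (â, 0)‖ ≤ (‖fderiv ℂ En 0‖ + 1) * (30 / X) := by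
      have := norm_add_le (En (â, 0) - fderiv ℂ En 0 (â, 0)) (fderiv ℂ En 0 (â, 0))
      rw [sub_add_cancel] at this
      refine le_trans ?_ (mul_le_mul_of_nonneg_left u1 (by positivity))
      nlinarith [h.σ_le, norm_nonneg â]
    have h8 : X⁻¹ ≤ δ := (inv_lt_of_inv_lt₀ hδ0 hX0).le
    have h9 : ‖e (X, aa w) 0‖ ≤ T * δ := by
      have := norm_add_le (e (X, aa w) 0 - En (â, 0)) (En (â, 0))
      rw [sub_add_cancel] at this
      have h10 : ‖e (X, aa w) 0‖ ≤ (T - 1) * X⁻¹ := by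
        refine (this.trans (add_le_add h2 h7)).trans (le_of_eq ?_)
        rw [hT]; ring
      nlinarith
    have h10 : ‖S.gl ρ (yy w) (e (X, aa w))‖ ≤ S.κ * (T * δ) :=
      (h.sc.base hρ h.ρ_le (hA _ hq)).trans
        (mul_le_mul_of_nonneg_left (max_le (hy.le.trans (by nlinarith)) h9) hκ)
    have h11 : (S.κ + 1) * T * L * δ = ε := by rw [hδ]; field_simp
    have h12 := (convex_ball (0 : Ξ) (2 * ρ₀)).norm_image_sub_le_of_norm_fderiv_le (𝕜 := ℂ)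
      (fun z hz => h.sc.dat_diff.differentiableAt (isOpen_ball.mem_nhds hz)) h.sc.dat_fd
      (mem_ball_self (by linarith [h.ρ_le])) (ball_subset_ball (by linarith [h.ρ_le]) (hg _ hq))
    rw [S.dat0, sub_zero, sub_zero] at h12
    have h13 : L * ‖S.gl ρ (yy w) (e (X, aa w))‖ < ε := by
      have := mul_le_mul_of_nonneg_left h10 (by linarith : 0 ≤ L)
      have h14 : 0 < T * L * δ := by positivity
      nlinarith
    exact ⟨lt_of_le_of_lt (le_mul_of_one_le_left (norm_nonneg _) hL) h13, h12.trans_lt h13⟩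
  · have hq := real_mem (by linarith) t0 hX hw
    refine (h.est ((mem_Om hr).1 hq).1 (hh X hX _ hw.2).2 (hA _ hq)
      fun b hb => f.est X (x0.trans_lt hX) _ hw.2 b (hsub hb)).trans ?_
    have h3 : 0 ≤ X ^ (-k) := Real.rpow_nonneg (by linarith) _
    rw [← mul_assoc, ← mul_div_assoc]
    refine div_le_div_of_nonneg_right ?_ (by positivity)
    have h4 := mul_le_mul_of_nonneg_right hC1 hC0
    have h5 : C ≤ |C| := le_abs_self C
    have h6 : (‖fderiv ℂ I 0‖ + 1) * S.κ * C ≤ (‖fderiv ℂ I 0‖ + 1) * (2 * ρ + S.κ * |C|) := by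
      rw [mul_assoc]
      exact mul_le_mul_of_nonneg_left
        ((mul_le_mul_of_nonneg_left h5 hκ).trans (le_add_of_nonneg_left (by positivity)))
        (by positivity)
    calc _ = (‖fderiv ℂ I 0‖ + 1) * S.κ * C0 + (‖fderiv ℂ I 0‖ + 1) * S.κ * C * X ^ (-k) := by ring
      _ ≤ _ := add_le_add h4 (mul_le_mul_of_nonneg_right h6 h3)

/-- **the glued family** -/
theorem Ab.exists_fix (a : Ab S I En cΞ cB cW) {ρ1 rb : ℝ} (h1 : 0 < ρ1) (hb : 0 < rb) :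
    ∃ (r C1 : ℝ) (Θ : (ι ⊕ κ → ℂ) → ι ⊕ κ → ℂ), 0 ≤ C1 ∧ Th Θ r C1 ∧
      ∀ (K C0 : ℝ) (e : ℂ × (κ → ℂ) → B → W) (X0 θ C k : ℝ), 0 ≤ C0 →
        EF En cB cW rb K C0 e X0 θ C k → ∃ ξ X1 θ1 C', X0 ≤ X1 ∧ θ1 ≤ θ ∧
          Fix S I cΞ e Θ ξ ρ1 r K (C1 * C0) X1 θ1 C' k := by
  obtain ⟨Cm, hC, hl⟩ := exists_low (fderiv ℂ I 0 ∘L S.Rs ∘L ContinuousLinearMap.inr ℂ _ _ ∘L
    fderiv ℂ En 0 ∘L ContinuousLinearMap.inl ℂ _ _) a.inj
  have hκ := S.κ_nonneg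
  set T := (1 + ‖fderiv ℂ I 0‖) * S.κ * (‖fderiv ℂ En 0‖ + 1) + ‖fderiv ℂ I 0‖ * ‖S.Rs‖ with hT
  have hT0 : 0 ≤ T := by positivity
  obtain ⟨ρ₀, c, L, hρ₀, h⟩ := S.exists_ch a.hI a.hE a.E0 a.hP
    (σ := min (1 / 4) (1 / (2 * Cm * (T + 1)))) (by positivity) (min_le_left _ _)
  obtain ⟨r2, hr2, h2⟩ := Metric.eventually_nhds_iff_ball.1 (a.cΦ.and (a.cdat.and a.cI))
  obtain ⟨r3, hr3, h3⟩ := Metric.eventually_nhds_iff_ball.1 a.cE
  obtain ⟨m, m0, m1, m2, m3, m4⟩ : ∃ m, 0 < m ∧ m ≤ ρ1 ∧ m ≤ rb ∧ m ≤ r2 ∧ m ≤ r3 :=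
    ⟨min (min ρ1 rb) (min r2 r3), by positivity, (min_le_left _ _).trans (min_le_left _ _),
      (min_le_left _ _).trans (min_le_right _ _), (min_le_right _ _).trans (min_le_left _ _),
      (min_le_right _ _).trans (min_le_right _ _)⟩
  have j : Cj S I En cΞ cB cW m := ⟨fun ξ hξ => (h2 ξ (ball_subset_ball m3 hξ)).1,
    fun ξ hξ => (h2 ξ (ball_subset_ball m3 hξ)).2.1,
    fun ξ hξ => (h2 ξ (ball_subset_ball m3 hξ)).2.2, fun z hz => h3 z (ball_subset_ball m4 hz)⟩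
  have hL : 1 ≤ L := (h ρ₀ hρ₀ le_rfl).choose_spec.sc.L_ge
  obtain ⟨r, h⟩ := h (min ρ₀ (m / (2 * L))) (by positivity) (min_le_left _ _)
  have hm : 2 * (L * min ρ₀ (m / (2 * L))) ≤ m := by
    have := (le_div_iff₀ (by positivity)).1 (min_le_right ρ₀ (m / (2 * L)))
    linarith
  have t := a.th j h hm hC hl (by
    have h4 := (le_div_iff₀ (by positivity)).1 (min_le_right (1 / 4) (1 / (2 * Cm * (T + 1))))
    have h5 := mul_pos hC h.σ_pos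
    rw [← hT]
    nlinarith)
  have h6 : 0 ≤ (‖fderiv ℂ I 0‖ + 1) * S.κ := by positivity
  refine ⟨r, 2 * Cm + (‖fderiv ℂ I 0‖ + 1) * S.κ, _, by positivity,
    ⟨t.r_pos, t.hΘ, t.Θ_inl, t.Θ_zero, t.Θ_real, fun α => (t.jac α).trans
      (mul_le_mul_of_nonneg_right (by linarith) (norm_nonneg _))⟩,
    fun K C0 e X0 θ C k h0 f => f.fix a j h hm m1 m2 h0 (by linarith)⟩

end Crest.Agent.N250.Gl

end
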