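import Crest.Agent.N250.R0.Leaf
import Crest.Agent.N250.Gl.Fix2
import Crest.Agent.N250.R.Ls
import Crest.Agent.N250.Wt.Mul
import Crest.Agent.N250.Wt.AA3

/-!
# Row 250 (helper18): the gluing from its leaves
-/

set_option autoImplicit false
set_option linter.unusedSectionVars false
open Set Filter Topology Metric
open Crest.GeometryTopology.MCF

noncomputable section

namespace Crest.Agent.N250.Gl

open R0 WS Wr B1
open B2 (aa ofR)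
open Gi (KK)

theorem EF.raise {κ : Type} [Fintype κ] {B W : Type*} [NormedAddCommGroup B] [NormedSpace ℂ B]
    [NormedAddCommGroup W] [NormedSpace ℂ W] {En : (κ → ℂ) × B → W} {cB : B → B} {cW : W → W}
    {rb K C0 X0 X1 θ C k : ℝ} {e : ℂ × (κ → ℂ) → B → W} (f : EF En cB cW rb K C0 e X0 θ C k)
    (h0 : 0 ≤ X1) (h1 : X0 ≤ X1) : EF En cB cW rb K C0 e X1 θ C k :=
  ⟨f.K_nonneg, f.θ_pos, f.k_pos, f.hol.mono (prod_mono (OmE_mono h0 h1 le_rfl) Subset.rfl),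
    fun X hX => f.est X (h1.trans_lt hX), fun q hq => f.cx q (OmE_mono h0 h1 le_rfl hq),
    fun X hX => f.cj X (h1.trans_lt hX)⟩

variable {S : Mv} {T : St S} {F : Fa T} {σ : Scale T.G}
  {En : (Fin T.p → ℂ) × T.BB → T.WW σ} {A : F.Ξ σ ≃L[ℂ] F.HH σ}

/-- the glued system as an abstract system -/
def sysF (h : F.PhiD σ)
    (hA : ∀ ξ, A ξ = fderiv ℂ F.Φ 0 (ξ, 0, fderiv ℂ En 0 (0, fderiv ℂ F.dat 0 ξ))) :
    Sys (F.Ξ σ) (F.HH σ) (Fin F.n → ℂ) T.BB (T.WW σ) :=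
  ⟨F.Φ, F.dat, fderiv ℂ En 0 ∘L ContinuousLinearMap.inr ℂ _ _, A, h.hol, h.dat.hol, h.zero,
    h.dat.zero, hA⟩

theorem abF {rb C0 : ℝ} (h : F.PhiD σ) (hE : T.EnD σ En rb C0)
    (hA : ∀ ξ, A ξ = fderiv ℂ F.Φ 0 (ξ, 0, fderiv ℂ En 0 (0, fderiv ℂ F.dat 0 ξ)))
    (hi : ∀ α ξ, A ξ = -fderiv ℂ F.Φ 0 (0, 0, fderiv ℂ En 0 (α, 0)) → ξ.2.1 = 0 → α = 0) :
    Ab (sysF h hA) F.II En F.cj T.cB (T.cW σ) where
  hI := h.ii.hol
  I0 := h.ii.zero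
  ΦI _ _ _ e := funext fun k => sub_eq_zero.1 (congrFun (congrArg (fun z => z.2.1) e) k)
  hE := hE.hol
  E0 := hE.zero
  hP _ := rfl
  inj α e := hi α _ ((sysF h hA).A_Rs _) ((h.ii.fd _).symm.trans e)
  norm_c ξ := by simp [Fa.cj, Prod.norm_def]
  cΦ := h.cj
  cdat := Eventually.of_forall h.dat.cj
  cI := h.ii.cj
  cE := hE.cj

variable {N : ℕ} {ξ : ℂ × (F.I → ℂ) → F.Ξ σ} {ρ ρ' r X1 θ C0 C k : ℝ} {Θ : (F.I → ℂ) → F.I → ℂ}
  {h : F.PhiD σ}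
  {hA : ∀ ξ, A ξ = fderiv ℂ F.Φ 0 (ξ, 0, fderiv ℂ En 0 (0, fderiv ℂ F.dat 0 ξ))}

theorem gf_mono (g : F.Gf N ξ ρ r X1 θ) (h : ρ ≤ ρ') : F.Gf N ξ ρ' r X1 θ :=
  { g with small := fun q hq => ⟨(g.small q hq).1.trans_le h, (g.small q hq).2.trans_le h⟩ }

theorem Fix.gf (f : Fix (sysF h hA) F.II F.cj (fun q => T.eM σ N q.1 q.2) Θ ξ ρ r (KK N - 1 / 4) C0
      X1 θ C k) (hg : T.Good) (hb : Gi.Big N T.R (KK N - 1 / 4) T.k.ε X1)
    (hK : T.k.K1 ≤ KK N - 1 / 4) (hρ : ∀ j, T.R ^ (13 / 8 : ℝ) * (‖T.b0 j‖ + ρ) < T.k.ε / 2)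
    (hm : ∀ X y a (ξ : F.Ξ σ), X1 < X.re → ‖ξ‖ < ρ → ‖F.dat ξ‖ < ρ → F.Sv N X y a ξ →
      F.Mat N X a ξ) : F.Gf N ξ ρ r X1 θ := by
  have k1 := T.k.K1_ge
  have k2 := T.k.C_pos
  have k3 := T.k.ε_pos
  have k4 := T.k.small
  have k5 : 0 ≤ T.k.C * (3 / T.k.K1 + T.k.ε) := by positivity
  have en : ∀ j, Gi.En T.U N (F.bq ξ j) T.R (KK N - 1 / 4) T.k.K1 (13 / 8) (7 / 4) T.k.ε T.k.ε1
      T.k.C r X1 θ := fun j =>
    ⟨by norm_num [Ex], hb, f.θ_le, by linarith, hK, k2.le, by linarith, hg.e1.trans (by norm_num),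
      T.hU, (differentiableOn_const _).add (differentiableOn_pi.1 f.holb j), fun q hq =>
      lt_of_le_of_lt (mul_le_mul_of_nonneg_left ((norm_add_le _ _).trans (add_le_add le_rfl
        ((norm_le_pi_norm (F.dat (ξ q)) j).trans (f.small q hq).2.le)))
        (Real.rpow_nonneg hb.R0.le _)) (hρ j)⟩
  have sv : ∀ q ∈ Om r (KK N - 1 / 4) X1 θ, F.Sv N q.1 (yy q.2) (aa q.2) (ξ q) := fun q hq =>
    ⟨fun j => (en j).dom j hq, f.eq q hq⟩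
  exact
    { r_pos := f.r_pos
      θ_pos := f.θ_pos
      X1_ge := f.X1_ge
      θ_le := f.θ_le
      hol := f.hol
      small := f.small
      en := en
      sv := sv
      mat := fun q hq => hm _ _ _ _ hq.1 (f.small q hq).1 (f.small q hq).2 (sv q hq)
      cj := f.cj
      base := f.base }

end Crest.Agent.N250.Gl

namespace Crest.Agent.N250.R0

open Gl WS Wr B1
open B2 (aa ofR)
open Gi (KK)

/-- **the gluing** from its leaves -/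
theorem gluedS_of (hEx : ExL) (hGood : GoodL) (hEnd : EndL) (hJac : JacL) (hPhi : PhiL)
    (hLin : LinL) (hMat : MatL) (hVar : VarL) (hAct : ActL) (hAm : AmL) (hReal : RealL) :
    GluedS := by
  intro S Λ m hS e
  obtain ⟨T, rfl, hg, ⟨F, hl⟩, hm⟩ := hEx S Λ hS.shr (Ls.sh_ar hS) e _
    ((hGood S e).and ((hLin S e).and (hMat S e)))
  obtain ⟨δ, g, ham⟩ := hAm S T F
  obtain ⟨σ, hσ⟩ := T.G.exists_scale' T.G.mulS (((hEnd S T hg).and (hJac S T hg)).and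
    (((hPhi S T F).and (hl.and (hm hg F))).and
      ((hVar S T hg F).and ((hAct S T hg F).and (hReal S T hg F δ g ham)))))
  obtain ⟨⟨⟨En, rb, C0, hE⟩, hJ⟩, ⟨hP, hL, hM⟩, hV, hA, hR⟩ := hσ σ rfl
  obtain ⟨A, hA1, hA2⟩ := hL hP En (hJ En rb C0 hE)
  obtain ⟨ρM, XM, ρM0, hM⟩ := hM hP
  obtain ⟨ρV, ρV0, hV⟩ := hV hP
  obtain ⟨ρA, ρA0, hA⟩ := hA hP
  obtain ⟨ρR, ρR0, hR⟩ := hR hP
  obtain ⟨ρI, ρI0, hI⟩ := Metric.eventually_nhds_iff_ball.1 hP.ii.cj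
  have hb : ∀ᶠ ρ in 𝓝 (0 : ℝ), ∀ j, T.R ^ (13 / 8 : ℝ) * (‖T.b0 j‖ + ρ) < T.k.ε / 2 :=
    eventually_all.2 fun j => (show ContinuousAt (fun ρ : ℝ => T.R ^ (13 / 8 : ℝ) * (‖T.b0 j‖ + ρ)) 0
      by fun_prop).eventually (gt_mem_nhds (by simpa using hg.hb0 j))
  obtain ⟨ρ, ⟨⟨m1, m2, m3, m4, m5⟩, hb⟩, ρ0⟩ := (((((gt_mem_nhds ρM0).and ((gt_mem_nhds ρV0).and
    ((gt_mem_nhds ρA0).and ((gt_mem_nhds ρR0).and (gt_mem_nhds ρI0))))).and hb).filter_mono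
    nhdsWithin_le_nhds).and (self_mem_nhdsWithin (s := Ioi (0 : ℝ)))).exists
  have ab := abF hP hE hA1 hA2
  obtain ⟨r, C1, Θ, c1, hT, hF⟩ := ab.exists_fix ρ0 hE.rb_pos
  have c0 := hE.C0_nonneg
  have c2 : 0 ≤ C1 * C0 := by positivity
  have e0 := T.k.ε_pos
  have R0 : 0 < T.R := by nlinarith [T.hR, T.e.R_ge, T.e.ε_pos, T.e.ε_le]
  obtain ⟨N0, hN⟩ := eventually_atTop.1 (hE.ef.and ((eventually_ge_atTop HJ.N0).and
    (((tendsto_natCast_atTop_atTop (R := ℝ)).eventually_ge_atTop (8000 / T.k.ε)).and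
      ((tendsto_natCast_atTop_atTop (R := ℝ)).eventually_ge_atTop T.k.K1))))
  refine ⟨C1 + C1 * C0, N0, fun N hN' => ?_⟩
  obtain ⟨⟨X0, θ0, C, k, hf⟩, n1, n2, n3⟩ := hN N hN'
  have n0 : (0 : ℝ) ≤ N := Nat.cast_nonneg _
  obtain ⟨X2, y0, y1, y2, y3, y4⟩ : ∃ X2 : ℝ, X0 ≤ X2 ∧ XM ≤ X2 ∧ 2 * T.R + 4 ≤ X2 ∧
      4 * √(KK N - 1 / 4) ≤ X2 ∧ 20 / T.k.ε ≤ X2 :=
    ((eventually_ge_atTop _).and ((eventually_ge_atTop _).and ((eventually_ge_atTop _).and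
      ((eventually_ge_atTop _).and (eventually_ge_atTop _))))).exists
  obtain ⟨ξ, X1, θ, C', x1, -, f⟩ := hF _ _ _ _ _ _ _ (by positivity) (hf.raise (by linarith) y0)
  have x2 := f.X1_ge
  have G : F.Gf N ξ ρ r X1 θ := f.gf hg
    ⟨R0, e0, n1, by linarith, by linarith, by linarith, by linarith, by nlinarith⟩
    (by unfold KK; linarith) hb fun X y a ξ h1 h2 h3 =>
      hM N X y a ξ (by linarith) (h2.trans m1) (h3.trans m1)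
  obtain ⟨CT, hV⟩ := hV N ξ r X1 θ (gf_mono G m2.le)
  obtain ⟨a1, ⟨CA, a2⟩, a3, a4⟩ := hA N ξ r X1 θ (gf_mono G m3.le)
  obtain ⟨CB, b0, b1, b2, b3, b4⟩ : ∃ CB : ℝ, 0 ≤ CB ∧ CT ≤ CB ∧ CA ≤ CB ∧ C' ≤ CB ∧ ρ ≤ CB :=
    ((eventually_ge_atTop _).and ((eventually_ge_atTop _).and ((eventually_ge_atTop _).and
      ((eventually_ge_atTop _).and (eventually_ge_atTop _))))).exists
  have P : Gi.Pc T.U N (F.bq ξ) (F.Aq N ξ) (fun q => F.II (ξ q)) (fun q => F.c (ξ q))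
      (fun q => (ξ q).2.2) Θ (4 * Real.pi * S.Fs 0 0 1) (C1 + C1 * C0) T.R T.k.K1 (13 / 8) (7 / 4)
      T.k.ε T.k.ε1 T.k.C r X1 θ CB k := by
    refine ⟨f.r_pos, f.θ_pos, f.θ_le, f.k_pos, b0, by norm_num [Ex], G.en, a1, f.holI,
      f.hol.snd.snd, fun q hq => ⟨(a2 q hq).trans b2, (f.bdI q hq).trans b3, ?_⟩,
      fun q hq i => congrFun (ab.ΦI _ _ _ (f.eq q hq)) i, fun X hX x hx => ⟨a3 X hX x hx, ?_⟩,
      fun X hX w hw η v => ?_, fun X hX w hw => (f.est X hX w hw).trans ?_, a4⟩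
    · exact ((norm_snd_le _).trans (norm_snd_le _)).trans ((f.small q hq).1.le.trans b4)
    · have k1 := f.cj X hX _ hx
      rw [star_ofR] at k1
      have k2 := hI _ (mem_ball_zero_iff.2
        ((f.small _ (real_mem (by linarith) f.θ_pos hX hx)).1.trans m5))
      rw [← k1] at k2
      exact im_of_star k2.symm
    · obtain ⟨Tq, t1, t2⟩ := hV X hX w hw η v
      have x0 : 0 < X := by linarith
      exact ⟨Tq, fun j => (t1 j).trans (by gcongr), t2⟩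
    · have x0 : 0 < X := by linarith
      rw [← mul_div_assoc]
      gcongr
      linarith
  obtain ⟨r', X0', C'', k', hG⟩ := P.glued hT (by linarith)
  exact ⟨F.n, F.fA g, _, _, _, Θ, r', X0', θ, C'', k', ham.cons, hG,
    hR N ξ r X1 θ (gf_mono G m4.le)⟩

end Crest.Agent.N250.R0

end
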