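import Crest.Agent.N250.H.Fix

/-!
# Row 250 (helper18): quantitative holomorphic implicit function theorem, `1 - compact`

`Near A F ρ σ`: on the ball of radius `2 ρ` the map `A⁻¹ F` is holomorphic and `σ ρ`-close to the
identity.  Then `F` has exactly one zero `sol F ρ` in the closed ball of radius `ρ`.
-/

set_option autoImplicit false
open Set Filter Topology Metric

noncomputable section

namespace Crest.Agent.N250.Gl

open Crest.Agent.N250.H

variable {X Y P Z : Type*} [NormedAddCommGroup X] [NormedSpace ℂ X] [NormedAddCommGroup Y]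
  [NormedSpace ℂ Y] [NormedAddCommGroup P] [NormedSpace ℂ P] [NormedAddCommGroup Z]
  [NormedSpace ℂ Z]

/-- `A⁻¹ F` is close to the identity on the ball of radius `2 ρ` -/
structure Near (A : X ≃L[ℂ] Y) (F : X → Y) (ρ σ : ℝ) : Prop where
  ρ_pos : 0 < ρ
  σ_le : σ ≤ 1 / 4
  diff : DifferentiableOn ℂ F (ball 0 (2 * ρ))
  bd : ∀ x ∈ ball (0 : X) (2 * ρ), ‖x - A.symm (F x)‖ ≤ σ * ρ

/-- the zero of `F` in the closed ball of radius `ρ` -/
def sol (F : X → Y) (ρ : ℝ) : X := by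
  classical exact if h : ∃ x ∈ closedBall (0 : X) ρ, F x = 0 then h.choose else 0

namespace Near

variable {A : X ≃L[ℂ] Y} {F G : X → Y} {ρ σ τ : ℝ}

theorem σ_nonneg (h : Near A F ρ σ) : 0 ≤ σ := by
  have := (norm_nonneg _).trans (h.bd 0 (mem_ball_self (by linarith [h.ρ_pos])))
  exact nonneg_of_mul_nonneg_left this h.ρ_pos

theorem sub (h : Near A F ρ σ) : closedBall (0 : X) ρ ⊆ ball 0 (2 * ρ) :=
  closedBall_subset_ball (by linarith [h.ρ_pos])

theorem diffT (h : Near A F ρ σ) :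
    DifferentiableOn ℂ (fun x => x - A.symm (F x)) (ball 0 (ρ + ρ)) := by
  rw [← two_mul]
  exact differentiableOn_id.sub (A.symm.differentiable.comp_differentiableOn h.diff)

theorem ctr (h : Near A F ρ σ) : Ctr (fun x => x - A.symm (F x)) (closedBall 0 ρ) (2 * σ) := by
  have hρ := h.ρ_pos
  have := ctr_of_small (x0 := 0) (ε := σ * ρ) hρ h.diffT
    (fun x hx => by rw [sub_zero]; exact h.bd x (by rwa [two_mul])) (by nlinarith [h.σ_le])
  rwa [← mul_assoc, mul_div_cancel_right₀ _ hρ.ne'] at this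

/-- lower Lipschitz bound: uniqueness and every comparison -/
theorem cmp (h : Near A F ρ σ) {x y : X} (hx : x ∈ closedBall (0 : X) ρ)
    (hy : y ∈ closedBall (0 : X) ρ) : ‖x - y‖ ≤ 2 * ‖A.symm (F x - F y)‖ := by
  have h1 := h.ctr.lip x hx y hy
  have h2 : x - y = (x - A.symm (F x) - (y - A.symm (F y))) + A.symm (F x - F y) := by
    rw [map_sub]; abel
  have h3 : ‖x - y‖ ≤ ‖x - A.symm (F x) - (y - A.symm (F y))‖ + ‖A.symm (F x - F y)‖ := by
    conv_lhs => rw [h2]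
    exact norm_add_le _ _
  nlinarith [h.σ_le, norm_nonneg (x - y)]

theorem uniq (h : Near A F ρ σ) {x y : X} (hx : x ∈ closedBall (0 : X) ρ)
    (hy : y ∈ closedBall (0 : X) ρ) (e : F x = F y) : x = y := by
  have := h.cmp hx hy
  rw [e, sub_self, map_zero, norm_zero, mul_zero] at this
  exact sub_eq_zero.1 (norm_le_zero_iff.1 this)

/-- the derivative of `A⁻¹ F` is close to the identity -/
theorem fd (h : Near A F ρ σ) {x : X} (hx : x ∈ closedBall (0 : X) ρ) (v : X) :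
    ‖v - A.symm (fderiv ℂ F x v)‖ ≤ 2 * σ * ‖v‖ := by
  have hρ := h.ρ_pos
  have hs : ball x ρ ⊆ ball 0 (ρ + ρ) :=
    ball_subset_ball' (by rw [mem_closedBall] at hx; linarith)
  have h1 := fd_le (M := σ * ρ) hρ (h.diffT.mono hs)
    (fun z hz => h.bd z (by rw [two_mul]; exact hs hz))
  have hF : DifferentiableAt ℂ F x := h.diff.differentiableAt (isOpen_ball.mem_nhds (h.sub hx))
  have h2 : HasFDerivAt (fun x => x - A.symm (F x))
      (ContinuousLinearMap.id ℂ X - (A.symm : Y →L[ℂ] X) ∘L fderiv ℂ F x) x :=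
    (hasFDerivAt_id x).sub ((A.symm : Y →L[ℂ] X).hasFDerivAt.comp x hF.hasFDerivAt)
  rw [h2.fderiv, ← mul_assoc, mul_div_cancel_right₀ _ hρ.ne'] at h1
  exact (ContinuousLinearMap.le_of_opNorm_le _ h1 v)

theorem fd_low (h : Near A F ρ σ) {x : X} (hx : x ∈ closedBall (0 : X) ρ) (v : X) :
    ‖v‖ ≤ 2 * ‖A.symm (fderiv ℂ F x v)‖ := by
  have h1 := h.fd hx v
  have h2 := norm_add_le (v - A.symm (fderiv ℂ F x v)) (A.symm (fderiv ℂ F x v))
  rw [sub_add_cancel] at h2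
  nlinarith [h.σ_le, norm_nonneg v]

variable [CompleteSpace X]

theorem ex (h : Near A F ρ σ) : ∃ x ∈ closedBall (0 : X) ρ, F x = 0 := by
  obtain ⟨x, hx, e⟩ := h.ctr.exists_fix isClosed_closedBall (by linarith [h.σ_nonneg])
    (by linarith [h.σ_le]) ⟨0, mem_closedBall_self h.ρ_pos.le⟩
  exact ⟨x, hx, by simpa using e⟩

theorem sol_mem (h : Near A F ρ σ) : sol F ρ ∈ closedBall (0 : X) ρ := by
  rw [sol, dif_pos h.ex]; exact h.ex.choose_spec.1

theorem sol_eq (h : Near A F ρ σ) : F (sol F ρ) = 0 := by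
  rw [sol, dif_pos h.ex]; exact h.ex.choose_spec.2

theorem eq_sol (h : Near A F ρ σ) {x : X} (hx : x ∈ closedBall (0 : X) ρ) (e : F x = 0) :
    x = sol F ρ := h.uniq hx h.sol_mem (e.trans h.sol_eq.symm)

theorem norm_sol (h : Near A F ρ σ) : ‖sol F ρ‖ ≤ σ * ρ := by
  simpa [h.sol_eq] using h.bd _ (h.sub h.sol_mem)

/-- distance of an approximate solution to the solution -/
theorem dist_sol (h : Near A F ρ σ) {x : X} (hx : x ∈ closedBall (0 : X) ρ) :
    ‖x - sol F ρ‖ ≤ 2 * ‖A.symm (F x)‖ := by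
  simpa [h.sol_eq] using h.cmp hx h.sol_mem

/-- **jumps**: two equations -/
theorem jump (h : Near A F ρ σ) (h' : Near A G ρ τ) :
    ‖sol G ρ - sol F ρ‖ ≤ 2 * ‖A.symm (F (sol G ρ) - G (sol G ρ))‖ := by
  simpa [h'.sol_eq] using h.dist_sol h'.sol_mem

theorem jump_le (h : Near A F ρ σ) (h' : Near A G ρ τ) {δ : ℝ}
    (hδ : ∀ x ∈ closedBall (0 : X) ρ, ‖F x - G x‖ ≤ δ) :
    ‖sol G ρ - sol F ρ‖ ≤ 2 * ‖(A.symm : Y →L[ℂ] X)‖ * δ := by
  refine (h.jump h').trans ?_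
  rw [mul_assoc]
  refine mul_le_mul_of_nonneg_left ?_ (by norm_num)
  exact ((A.symm : Y →L[ℂ] X).le_opNorm _).trans
    (mul_le_mul_of_nonneg_left (hδ _ h'.sol_mem) (norm_nonneg _))

end Near

/-- **holomorphy in parameters** -/
theorem sol_diffOn [CompleteSpace X] {A : X ≃L[ℂ] Y} {F : Z → X → Y} {ρ σ : ℝ} {U : Set Z}
    (hU : IsOpen U) (h : ∀ z ∈ U, Near A (F z) ρ σ)
    (hd : DifferentiableOn ℂ (fun q : Z × X => F q.1 q.2) (U ×ˢ ball 0 (2 * ρ))) :
    DifferentiableOn ℂ (fun z => sol (F z) ρ) U := by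
  rcases U.eq_empty_or_nonempty with rfl | ⟨z0, hz0⟩
  · exact differentiableOn_empty
  have h0 := h z0 hz0
  obtain ⟨x, hx, hx'⟩ := exists_fix_hol (T := fun z x => x - A.symm (F z x)) (k := 2 * σ) (ρ := ρ)
    (x0 := 0) (V := U ×ˢ ball 0 (2 * ρ)) hU (by linarith [h0.σ_nonneg]) (by linarith [h0.σ_le])
    h0.ρ_pos.le (fun z hz => (h z hz).ctr) (fun z hz x hx => ⟨hz, h0.sub hx⟩)
    (differentiableOn_snd.sub (A.symm.differentiable.comp_differentiableOn hd))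
  refine hx.congr fun z hz => ((h z hz).eq_sol (hx' z hz).1 ?_).symm
  simpa using (hx' z hz).2

/-- the linearised equation -/
theorem sol_fderiv [CompleteSpace X] {A : X ≃L[ℂ] Y} {F : Z → X → Y} {ρ σ : ℝ} {U : Set Z}
    (hU : IsOpen U) (h : ∀ z ∈ U, Near A (F z) ρ σ)
    (hd : DifferentiableOn ℂ (fun q : Z × X => F q.1 q.2) (U ×ˢ ball 0 (2 * ρ))) {z : Z}
    (hz : z ∈ U) (v : Z) :
    fderiv ℂ (fun q : Z × X => F q.1 q.2) (z, sol (F z) ρ)
      (v, fderiv ℂ (fun z => sol (F z) ρ) z v) = 0 := by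
  have h1 := ((sol_diffOn hU h hd).differentiableAt (hU.mem_nhds hz)).hasFDerivAt
  have h2 := (hd.differentiableAt ((hU.prod isOpen_ball).mem_nhds
    (⟨hz, (h z hz).sub (h z hz).sol_mem⟩ : (z, sol (F z) ρ) ∈ U ×ˢ ball 0 (2 * ρ)))).hasFDerivAt
  have h3 := h2.comp z ((hasFDerivAt_id z).prodMk h1)
  have h4 : HasFDerivAt ((fun q : Z × X => F q.1 q.2) ∘ fun z => (id z, sol (F z) ρ))
      (0 : Z →L[ℂ] Y) z := by
    refine (hasFDerivAt_const (0 : Y) z).congr_of_eventuallyEq ?_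
    filter_upwards [hU.mem_nhds hz] with w hw using (h w hw).sol_eq
  exact congrArg (fun T : Z →L[ℂ] Y => T v) (h3.unique h4)

/-- **entrance**: every holomorphic map close to a slice of a model `F₀` is `Near` -/
theorem near_of {A : X ≃L[ℂ] Y} {F₀ : X × P → Y} {T : X × P →L[ℂ] Y} (h0 : F₀ 0 = 0)
    (hT : HasFDerivAt F₀ T 0) (hA : ∀ x, T (x, 0) = A x) {σ : ℝ} (hσ : 0 < σ) (hσ' : σ ≤ 1 / 4) :
    ∃ ρ₀ c : ℝ, 0 < ρ₀ ∧ 0 < c ∧ c ≤ 1 ∧ ∀ ρ, 0 < ρ → ρ ≤ ρ₀ → ∀ (F : X → Y) (p : P), ‖p‖ ≤ c * ρ →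
      DifferentiableOn ℂ F (ball 0 (2 * ρ)) →
      (∀ x ∈ ball (0 : X) (2 * ρ), ‖F x - F₀ (x, p)‖ ≤ c * ρ) → Near A F ρ σ := by
  set κ := ‖(A.symm : Y →L[ℂ] X)‖ + 1 with hκ
  have hκ0 : 0 < κ := by positivity
  have hA' : ∀ y, ‖A.symm y‖ ≤ κ * ‖y‖ := fun y =>
    ((A.symm : Y →L[ℂ] X).le_opNorm y).trans
      (mul_le_mul_of_nonneg_right (by linarith) (norm_nonneg _))
  have h1 := (hasFDerivAt_iff_isLittleO.1 hT).def (c := σ / (4 * κ)) (by positivity)
  obtain ⟨r, hr, hb⟩ := Metric.eventually_nhds_iff.1 h1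
  set t := ‖T‖ + 1 with ht
  have ht0 : 0 < t := by positivity
  have ht1 : 1 ≤ t := by linarith [norm_nonneg T]
  have hκ1 : 1 ≤ κ := by linarith [norm_nonneg (A.symm : Y →L[ℂ] X)]
  have hc1 : σ / (4 * κ * t) ≤ 1 := by
    rw [div_le_one (by positivity)]; nlinarith [mul_le_mul hκ1 ht1 zero_le_one hκ0.le]
  refine ⟨r / 2, σ / (4 * κ * t), by positivity, by positivity, hc1,
    fun ρ hρ hρr F p hp hd hF => ⟨hρ, hσ', hd, fun x hx => ?_⟩⟩
  have hx' : ‖x‖ < 2 * ρ := mem_ball_zero_iff.1 hx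
  have hp' : ‖p‖ ≤ ρ := hp.trans (by nlinarith)
  have hq : ‖(x, p)‖ < 2 * ρ := by rw [Prod.norm_def]; exact max_lt hx' (by linarith)
  have h2 := hb (y := (x, p)) (by rw [dist_zero_right]; linarith)
  simp only [h0, sub_zero] at h2
  have e : x - A.symm (F x) =
      -A.symm ((F x - F₀ (x, p)) + (F₀ (x, p) - T (x, p)) + T (0, p)) := by
    have : T (x, p) = A x + T (0, p) := by rw [← hA, ← map_add]; simp
    rw [this]
    simp only [map_add, map_sub, ContinuousLinearEquiv.symm_apply_apply]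
    abel
  rw [e, norm_neg]
  refine (hA' _).trans ?_
  have h3 : ‖T (0, p)‖ ≤ t * (σ / (4 * κ * t) * ρ) := by
    refine (T.le_opNorm _).trans (mul_le_mul (by linarith) ?_ (norm_nonneg _) ht0.le)
    simpa [Prod.norm_def] using hp
  have h4 : t * (σ / (4 * κ * t) * ρ) = σ / (4 * κ) * ρ := by field_simp
  have h5 : σ / (4 * κ * t) * ρ ≤ σ / (4 * κ) * ρ := by
    rw [← h4]; exact le_mul_of_one_le_left (by positivity) ht1
  have h6 : σ / (4 * κ) * ‖(x, p)‖ ≤ σ / (4 * κ) * (2 * ρ) :=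
    mul_le_mul_of_nonneg_left hq.le (by positivity)
  have h7 := norm_add₃_le (a := F x - F₀ (x, p)) (b := F₀ (x, p) - T (x, p)) (c := T (0, p))
  have h8 : ‖F x - F₀ (x, p) + (F₀ (x, p) - T (x, p)) + T (0, p)‖ ≤ σ / κ * ρ := by
    have e2 : σ / κ * ρ = 4 * (σ / (4 * κ) * ρ) := by field_simp
    linarith [hF x hx]
  calc κ * _ ≤ κ * (σ / κ * ρ) := mul_le_mul_of_nonneg_left h8 hκ0.le
    _ = σ * ρ := by field_simp

/-- **Fredholm alternative** -/
theorem fred [CompleteSpace X] {K : X →L[ℂ] X} (hK : IsCompactOperator K)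
    (hi : ∀ x, K x = x → x = 0) : ∃ A : X ≃L[ℂ] X, ∀ x, A x = x - K x := by
  rcases hK.hasEigenvalue_or_mem_resolventSet (μ := 1) one_ne_zero with h | h
  · obtain ⟨x, hx⟩ := h.exists_hasEigenvector
    exact absurd (hi x (by simpa using hx.apply_eq_smul)) hx.2
  · rw [spectrum.mem_resolventSet_iff, map_one, ContinuousLinearMap.isUnit_iff_bijective] at h
    exact ⟨ContinuousLinearEquiv.ofBijective (1 - K) (LinearMap.ker_eq_bot.2 h.1)
      (LinearMap.range_eq_top.2 h.2), fun x => rfl⟩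

end Crest.Agent.N250.Gl

end
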