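import Crest.Agent.N250.Gl.Ift

/-!
# Row 250 (helper18): injective bordered operators `(1 - nilpotent) ⊕ finite` are invertible
-/

set_option autoImplicit false
open Set Filter Topology Metric

noncomputable section

namespace Crest.Agent.N250.Gl

variable {X V V' : Type*} [NormedAddCommGroup X] [NormedSpace ℂ X] [CompleteSpace X]
  [NormedAddCommGroup V] [NormedSpace ℂ V] [FiniteDimensional ℂ V]
  [NormedAddCommGroup V'] [NormedSpace ℂ V'] [FiniteDimensional ℂ V']

theorem cpt_of_fin {E F : Type*} [NormedAddCommGroup E] [NormedSpace ℂ E] [NormedAddCommGroup F]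
    [NormedSpace ℂ F] (a : E →L[ℂ] V) (b : V →L[ℂ] F) : IsCompactOperator (b ∘L a) := by
  have : ProperSpace V := FiniteDimensional.proper ℂ V
  exact ((isCompactOperator_id (E := V)).comp_clm a).clm_comp b

theorem border (A : X × V →L[ℂ] X × V') (T : X →L[ℂ] X) (hT : ∀ x, T (T x) = 0)
    (hA : ∀ x, (A (x, 0)).1 = x - T x) (hd : Module.finrank ℂ V' = Module.finrank ℂ V)
    (hi : ∀ z, A z = 0 → z = 0) : ∃ B : (X × V) ≃L[ℂ] X × V', ∀ z, B z = A z := by
  have : CompleteSpace V := FiniteDimensional.complete ℂ V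
  have : CompleteSpace V' := FiniteDimensional.complete ℂ V'
  let e : V' ≃L[ℂ] V := (LinearEquiv.ofFinrankEq V' V hd).toContinuousLinearEquiv
  let N : X × V' →L[ℂ] X × V := (1 + T).prodMap (e : V' →L[ℂ] V)
  have hN : Function.Injective N := by
    rw [injective_iff_map_eq_zero]
    rintro ⟨x, v⟩ h
    have h1 : x + T x = 0 := congrArg Prod.fst h
    have h2 : e v = 0 := congrArg Prod.snd h
    have h3 : T x = 0 := by simpa [hT] using congrArg T h1
    rw [h3, add_zero] at h1
    rw [h1, e.map_eq_zero_iff.1 h2]; rfl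
  let K1 : X × V →L[ℂ] X × V :=
    (-(ContinuousLinearMap.inl ℂ X V ∘L ContinuousLinearMap.fst ℂ X V ∘L N ∘L A ∘L
      ContinuousLinearMap.inr ℂ X V)) ∘L ContinuousLinearMap.snd ℂ X V
  let K2 : X × V →L[ℂ] X × V := ContinuousLinearMap.inr ℂ X V ∘L
    (ContinuousLinearMap.snd ℂ X V - ContinuousLinearMap.snd ℂ X V ∘L N ∘L A)
  have hK : IsCompactOperator (K1 + K2) := (cpt_of_fin _ _).add (cpt_of_fin _ _)
  have he : ∀ z, z - (K1 + K2) z = N (A z) := by
    rintro ⟨x, v⟩
    have h1 : A (x, v) = A (x, 0) + A (0, v) := by rw [← map_add]; simp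
    refine Prod.ext ?_ (by simp [K1, K2])
    have h2 : (N (A (x, 0))).1 = x := by simp [N, hA, hT]
    rw [h1, map_add N, Prod.fst_add, h2]
    simp [K1, K2]
  obtain ⟨B, hB⟩ := fred hK fun z hz => hi z (hN (by rw [← he, hz, sub_self, map_zero]))
  have hb : Function.Bijective A := by
    refine ⟨(injective_iff_map_eq_zero A).2 hi, fun w => ⟨B.symm (N w), hN ?_⟩⟩
    rw [← he, ← hB, B.apply_symm_apply]
  exact ⟨ContinuousLinearEquiv.ofBijective A (LinearMap.ker_eq_bot.2 hb.1)
    (LinearMap.range_eq_top.2 hb.2), fun _ => rfl⟩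

end Crest.Agent.N250.Gl

end
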