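import Crest.Agent.N250.Gl.Out

/-!
# Row 250 (helper18): the glued solution for a fixed holomorphic family of end maps
-/

set_option autoImplicit false
open Set Filter Topology Metric

noncomputable section

namespace Crest.Agent.N250.Gl

variable {Ξ H P B W V A : Type*} [NormedAddCommGroup Ξ] [NormedSpace ℂ Ξ] [NormedAddCommGroup H]
  [NormedSpace ℂ H] [NormedAddCommGroup P] [NormedSpace ℂ P] [NormedAddCommGroup B]
  [NormedSpace ℂ B] [NormedAddCommGroup W] [NormedSpace ℂ W] [NormedAddCommGroup V]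
  [NormedSpace ℂ V] [NormedAddCommGroup A] [NormedSpace ℂ A]

namespace Sys

/-- the scales are fixed; `Z` is an output, `En` the limit family of end maps -/
structure Ch (S : Sys Ξ H P B W) (Z : Ξ → V) (En : A × B → W) (ρ₀ c L σ ρ r : ℝ) : Prop where
  sc : S.Sc ρ₀ c L σ
  σ_pos : 0 < σ
  σ_le : σ ≤ 1 / 4
  ρ_pos : 0 < ρ
  ρ_le : ρ ≤ ρ₀
  r_pos : 0 < r
  r_le : r ≤ c * ρ
  Z_diff : DifferentiableOn ℂ Z (ball 0 (2 * ρ))
  Z_lin : ∀ x ∈ ball (0 : Ξ) (2 * ρ), ∀ x' ∈ ball (0 : Ξ) (2 * ρ),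
    ‖Z x - Z x' - fderiv ℂ Z 0 (x - x')‖ ≤ σ * ‖x - x'‖
  E_diff : DifferentiableOn ℂ En (ball 0 r ×ˢ ball 0 (L * ρ))
  E_near : ∀ a ∈ ball (0 : A) r, ∀ b ∈ ball (0 : B) (L * ρ), ‖En (a, b) - S.P₀ b‖ ≤ c * ρ / 2
  E_lin : ∀ a ∈ ball (0 : A) r, ∀ a' ∈ ball (0 : A) r, ∀ b ∈ ball (0 : B) (L * ρ),
    ‖En (a, b) - En (a', b) - fderiv ℂ En 0 (a - a', 0)‖ ≤ σ * ‖a - a'‖

theorem exists_ch (S : Sys Ξ H P B W) {Z : Ξ → V} {En : A × B → W} (hZ : HolAt Z) (hE : HolAt En)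
    (h0 : En 0 = 0) (hP : ∀ b, fderiv ℂ En 0 (0, b) = S.P₀ b) {σ : ℝ} (hσ : 0 < σ)
    (hσ' : σ ≤ 1 / 4) : ∃ ρ₀ c L, 0 < ρ₀ ∧ ∀ ρ, 0 < ρ → ρ ≤ ρ₀ → ∃ r, S.Ch Z En ρ₀ c L σ ρ r := by
  obtain ⟨ρ1, c, L, h⟩ := S.exists_sc hσ hσ'
  have hc := h.c_pos
  have hL := h.L_ge
  have hρ1 := h.ρ_pos
  obtain ⟨r1, hr1, hd1, hl1⟩ := hZ.lin hσ
  obtain ⟨r2, hr2, hd2, hl2⟩ := hE.lin (σ := min σ (c / (4 * L))) (by positivity)
  set D := fderiv ℂ En 0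
  have hD := norm_nonneg D
  have hρ₀ : 0 < min ρ1 (min (r1 / 2) (r2 / L)) := by positivity
  refine ⟨_, c, L, hρ₀, fun ρ hρ hρ' => ⟨c * ρ / (4 * (‖D‖ + 1)), ?_⟩⟩
  have h1 : 2 * ρ ≤ r1 := by linarith [hρ'.trans ((min_le_right _ _).trans (min_le_left _ _))]
  have h2 : L * ρ ≤ r2 := by
    rw [mul_comm, ← le_div_iff₀ (by linarith)]
    exact hρ'.trans ((min_le_right _ _).trans (min_le_right _ _))
  have h3 : c * ρ / (4 * (‖D‖ + 1)) ≤ c * ρ := div_le_self (by positivity) (by linarith)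
  have h4 : c * ρ ≤ L * ρ := mul_le_mul_of_nonneg_right (h.c_le.trans hL) hρ.le
  have hm : ∀ a ∈ ball (0 : A) (c * ρ / (4 * (‖D‖ + 1))), ∀ b ∈ ball (0 : B) (L * ρ),
      ‖(a, b)‖ < L * ρ := fun a ha b hb => by
    rw [mem_ball_zero_iff] at ha hb
    exact max_lt (ha.trans_le (h3.trans h4)) hb
  have hm' : ∀ a ∈ ball (0 : A) (c * ρ / (4 * (‖D‖ + 1))), ∀ b ∈ ball (0 : B) (L * ρ),
      (a, b) ∈ ball (0 : A × B) r2 := fun a ha b hb =>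
    mem_ball_zero_iff.2 ((hm a ha b hb).trans_le h2)
  refine ⟨h.mono hρ₀ (min_le_left _ _), hσ, hσ', hρ, hρ', by positivity, h3,
    hd1.mono (ball_subset_ball h1),
    fun x hx x' hx' => hl1 x (ball_subset_ball h1 hx) x' (ball_subset_ball h1 hx'),
    hd2.mono fun z hz => hm' _ hz.1 _ hz.2, fun a ha b hb => ?_, fun a ha a' ha' b hb => ?_⟩
  · have h5 := hl2 _ (hm' a ha b hb) 0 (mem_ball_self hr2)
    rw [h0, sub_zero, sub_zero] at h5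
    have h6 : En (a, b) - S.P₀ b = (En (a, b) - D (a, b)) + D (a, 0) := by
      have : (a, b) = (a, 0) + (0, b) := by simp
      rw [← hP, this, map_add]; abel
    have h7 : ‖D (a, 0)‖ ≤ c * ρ / 4 := by
      refine (D.le_opNorm _).trans ?_
      have : ‖(a, (0 : B))‖ = ‖a‖ := by simp [Prod.norm_def]
      rw [this]
      have h8 := (mem_ball_zero_iff.1 ha).le
      rw [le_div_iff₀ (by positivity)] at h8
      nlinarith [norm_nonneg a]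
    have h9 : min σ (c / (4 * L)) * ‖(a, b)‖ ≤ c / (4 * L) * (L * ρ) :=
      mul_le_mul (min_le_right _ _) (hm a ha b hb).le (norm_nonneg _) (by positivity)
    have h10 : c / (4 * L) * (L * ρ) = c * ρ / 4 := by field_simp
    rw [h6]
    linarith [norm_add_le (En (a, b) - D (a, b)) (D (a, 0))]
  · have h5 := hl2 _ (hm' a ha b hb) _ (hm' a' ha' b hb)
    have h6 : (a, b) - (a', b) = (a - a', 0) := by simp
    have h7 : ‖(a - a', (0 : B))‖ = ‖a - a'‖ := by simp [Prod.norm_def]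
    rw [h6, h7] at h5
    exact h5.trans (mul_le_mul_of_nonneg_right (min_le_left _ _) (norm_nonneg _))

variable {S : Sys Ξ H P B W} {Z : Ξ → V} {En : A × B → W} {ρ₀ c L σ ρ r : ℝ}

namespace Ch

theorem adm (h : S.Ch Z En ρ₀ c L σ ρ r) {y : P} (hy : ‖y‖ ≤ c * ρ) {a : A}
    (ha : a ∈ ball (0 : A) r) {e : B → W} (hd : DifferentiableOn ℂ e (ball 0 (L * ρ)))
    (he : ∀ b ∈ ball (0 : B) (L * ρ), ‖e b - En (a, b)‖ ≤ c * ρ / 2) : S.Adm c L ρ y e :=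
  ⟨hy, hd, fun b hb => by
    linarith [norm_sub_le_norm_sub_add_norm_sub (e b) (En (a, b)) (S.P₀ b), he b hb,
      h.E_near a ha b hb]⟩

theorem adm0 (h : S.Ch Z En ρ₀ c L σ ρ r) {y : P} (hy : ‖y‖ ≤ c * ρ) {a : A}
    (ha : a ∈ ball (0 : A) r) : S.Adm c L ρ y fun b => En (a, b) :=
  h.adm hy ha (h.E_diff.comp (f := fun b => (a, b)) (by fun_prop) fun _ hb => ⟨ha, hb⟩)
    fun b _ => by
      have := h.sc.c_pos
      have := h.ρ_pos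
      rw [sub_self, norm_zero]; positivity

theorem y_le (h : S.Ch Z En ρ₀ c L σ ρ r) {y : P} (hy : y ∈ ball (0 : P) r) : ‖y‖ ≤ c * ρ :=
  (mem_ball_zero_iff.1 hy).le.trans h.r_le

theorem Z_lip (h : S.Ch Z En ρ₀ c L σ ρ r) {x x' : Ξ} (hx : x ∈ ball (0 : Ξ) (2 * ρ))
    (hx' : x' ∈ ball (0 : Ξ) (2 * ρ)) : ‖Z x - Z x'‖ ≤ (‖fderiv ℂ Z 0‖ + 1) * ‖x - x'‖ := by
  have h1 := h.Z_lin x hx x' hx'
  have h2 := norm_add_le (Z x - Z x' - fderiv ℂ Z 0 (x - x')) (fderiv ℂ Z 0 (x - x'))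
  have h3 := (fderiv ℂ Z 0).le_opNorm (x - x')
  rw [sub_add_cancel] at h2
  nlinarith [h.σ_le, norm_nonneg (x - x')]

variable [CompleteSpace Ξ]

/-- the solution for the limit family -/
def xi (S : Sys Ξ H P B W) (En : A × B → W) (ρ : ℝ) (q : P × A) : Ξ :=
  S.gl ρ q.1 fun b => En (q.2, b)

theorem xi_diffOn (h : S.Ch Z En ρ₀ c L σ ρ r) :
    DifferentiableOn ℂ (xi S En ρ) (ball 0 r ×ˢ ball 0 r) :=
  h.sc.gl_diffOn h.ρ_pos h.ρ_le (isOpen_ball.prod isOpen_ball) (y := Prod.fst)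
    (e := fun q b => En (q.2, b)) (fun _ hq => h.adm0 (h.y_le hq.1) hq.2) differentiableOn_fst
    (h.E_diff.comp (f := fun z : (P × A) × B => (z.1.2, z.2)) (by fun_prop)
      fun _ hz => ⟨hz.1.2, hz.2⟩)

theorem xi_ball (h : S.Ch Z En ρ₀ c L σ ρ r) {q : P × A} (hq : q ∈ ball (0 : P) r ×ˢ ball (0 : A) r) :
    xi S En ρ q ∈ ball (0 : Ξ) (2 * ρ) :=
  h.sc.gl_ball h.ρ_pos h.ρ_le (h.adm0 (h.y_le hq.1) hq.2)

theorem Th_diffOn (h : S.Ch Z En ρ₀ c L σ ρ r) :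
    DifferentiableOn ℂ (fun q => Z (xi S En ρ q)) (ball 0 r ×ˢ ball 0 r) :=
  h.Z_diff.comp h.xi_diffOn fun _ hq => h.xi_ball hq

theorem xi_zero (h : S.Ch Z En ρ₀ c L σ ρ r) (h0 : En 0 = 0) : xi S En ρ 0 = 0 := by
  have := h.sc.base h.ρ_pos h.ρ_le (h.adm0 (h.y_le (mem_ball_self h.r_pos)) (mem_ball_self h.r_pos))
  have h1 : En (0, 0) = 0 := h0
  rw [h1, Prod.mk_zero_zero, norm_zero, mul_zero] at this
  exact norm_le_zero_iff.1 this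

/-- the solution for `e` is close to the solution for the limit family -/
theorem near (h : S.Ch Z En ρ₀ c L σ ρ r) {y : P} (hy : y ∈ ball (0 : P) r) {a : A}
    (ha : a ∈ ball (0 : A) r) {e : B → W} (he : S.Adm c L ρ y e) {t : ℝ}
    (ht : ∀ b ∈ ball (0 : B) (L * ρ), ‖e b - En (a, b)‖ ≤ t) :
    ‖S.gl ρ y e - xi S En ρ (y, a)‖ ≤ S.κ * t := by
  have a' := h.adm0 (h.y_le hy) ha
  refine (h.sc.resp h.ρ_pos h.ρ_le he a').1.trans (mul_le_mul_of_nonneg_left ?_ S.κ_nonneg)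
  simpa [Prod.norm_def] using ht _ (h.sc.dat_gl h.ρ_pos h.ρ_le a')

theorem est (h : S.Ch Z En ρ₀ c L σ ρ r) {y : P} (hy : y ∈ ball (0 : P) r) {a : A}
    (ha : a ∈ ball (0 : A) r) {e : B → W} (he : S.Adm c L ρ y e) {t : ℝ}
    (ht : ∀ b ∈ ball (0 : B) (L * ρ), ‖e b - En (a, b)‖ ≤ t) :
    ‖Z (S.gl ρ y e) - Z (xi S En ρ (y, a))‖ ≤ (‖fderiv ℂ Z 0‖ + 1) * (S.κ * t) :=
  (h.Z_lip (h.sc.gl_ball h.ρ_pos h.ρ_le he) (h.xi_ball (q := (y, a)) ⟨hy, ha⟩)).trans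
    (mul_le_mul_of_nonneg_left (h.near hy ha he ht) (by positivity))

/-- Jacobian in the end parameters -/
theorem lin (h : S.Ch Z En ρ₀ c L σ ρ r) {y : P} (hy : y ∈ ball (0 : P) r) {a a' : A}
    (ha : a ∈ ball (0 : A) r) (ha' : a' ∈ ball (0 : A) r) :
    ‖Z (xi S En ρ (y, a)) - Z (xi S En ρ (y, a')) -
        fderiv ℂ Z 0 (S.Rs (0, fderiv ℂ En 0 (a - a', 0)))‖ ≤
      σ * ((1 + ‖fderiv ℂ Z 0‖) * S.κ * (‖fderiv ℂ En 0‖ + 1) + ‖fderiv ℂ Z 0‖ * ‖S.Rs‖) *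
        ‖a - a'‖ := by
  have a1 := h.adm0 (h.y_le hy) ha
  have a2 := h.adm0 (h.y_le hy) ha'
  have h1 := h.sc.jac h.ρ_pos h.ρ_le a1 a2 h.σ_pos.le h.Z_lin (fderiv ℂ En 0 (a - a', 0))
  have h2 := h.E_lin a ha a' ha' _ (h.sc.dat_gl h.ρ_pos h.ρ_le a2)
  rw [sub_self] at h1
  refine h1.trans ?_
  set Δ := En (a, S.dat (S.gl ρ y fun b => En (a', b))) - En (a', S.dat (S.gl ρ y fun b => En (a', b)))
  have h3 : ‖((0 : P), Δ)‖ = ‖Δ‖ := by simp [Prod.norm_def]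
  have h4 : ‖Δ‖ ≤ (‖fderiv ℂ En 0‖ + 1) * ‖a - a'‖ := by
    have h5 := norm_add_le (Δ - fderiv ℂ En 0 (a - a', 0)) (fderiv ℂ En 0 (a - a', 0))
    have h6 := (fderiv ℂ En 0).le_opNorm (a - a', 0)
    have h7 : ‖(a - a', (0 : B))‖ = ‖a - a'‖ := by simp [Prod.norm_def]
    rw [sub_add_cancel] at h5
    rw [h7] at h6
    nlinarith [h.σ_le, norm_nonneg (a - a')]
  have hσ := h.σ_pos
  have hκ := S.κ_nonneg
  rw [h3]
  refine (add_le_add (mul_le_mul_of_nonneg_left h4 (by positivity))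
    (mul_le_mul_of_nonneg_left h2 (by positivity))).trans (le_of_eq (by ring))

end Ch

end Sys

end Crest.Agent.N250.Gl

end
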